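import Mathlib

/-!
The constants of the law change under `x (log n)² ≤ 1` (which holds for `x ≤ n ^ (-a)`, any `a > 0`).
-/

open MeasureTheory ProbabilityTheory Filter

namespace Vale.Agent.P146.X9

/-- the logarithm is eventually large -/
lemma log_ge (c : ℝ) : ∃ n₀ : ℕ, 2 ≤ n₀ ∧ ∀ n : ℕ, n₀ ≤ n → c ≤ Real.log n := by
  have h := (Real.tendsto_log_atTop.comp tendsto_natCast_atTop_atTop).eventually_ge_atTop c
  obtain ⟨n₀, hn₀⟩ := eventually_atTop.1 h
  exact ⟨max n₀ 2, le_max_right _ _, fun n hn => hn₀ n ((le_max_left _ _).trans hn)⟩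

/-- a logarithmic bound on `x` follows from a power bound -/
theorem x7_of {a : ℝ} (ha : 0 < a) : ∃ n₀ : ℕ, 2 ≤ n₀ ∧ ∀ n : ℕ, n₀ ≤ n → ∀ x : ℝ, 0 ≤ x →
    x * (n : ℝ) ^ a ≤ 1 → x * Real.log n ^ 2 ≤ 1 := by
  have h := (isLittleO_log_rpow_atTop (half_pos ha)).bound (c := 1) one_pos
  have h' := tendsto_natCast_atTop_atTop (R := ℝ) |>.eventually h
  obtain ⟨n₀, hn₀⟩ := eventually_atTop.1 h'
  refine ⟨max n₀ 2, le_max_right _ _, fun n hn x hx hxn => ?_⟩
  have h1 := hn₀ n ((le_max_left _ _).trans hn)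
  have h2 : 2 ≤ n := (le_max_right _ _).trans hn
  have hn1 : (1 : ℝ) ≤ n := by exact_mod_cast (by omega : 1 ≤ n)
  have hn0 : (0 : ℝ) < n := by linarith
  rw [one_mul, Real.norm_of_nonneg (Real.log_nonneg hn1),
    Real.norm_of_nonneg (Real.rpow_nonneg hn0.le _)] at h1
  have h3 : Real.log n ^ 2 ≤ (n : ℝ) ^ a := by
    calc Real.log n ^ 2 ≤ ((n : ℝ) ^ (a / 2)) ^ 2 :=
          pow_le_pow_left₀ (Real.log_nonneg hn1) h1 2
      _ = (n : ℝ) ^ a := by
          rw [← Real.rpow_natCast, ← Real.rpow_mul hn0.le]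
          congr 1
          push_cast
          ring
  exact (mul_le_mul_of_nonneg_left h3 hx).trans hxn

/-- `x` is eventually small -/
theorem x_le_of {τ : ℝ} (hτ : 0 < τ) : ∃ n₀ : ℕ, 2 ≤ n₀ ∧ ∀ n : ℕ, n₀ ≤ n → ∀ x : ℝ, 0 ≤ x →
    x * Real.log n ^ 2 ≤ 1 → x ≤ τ := by
  obtain ⟨n₀, h2, hn₀⟩ := log_ge (max 1 (1 / τ))
  refine ⟨n₀, h2, fun n hn x hx hxn => ?_⟩
  have h1 := hn₀ n hn
  have h3 : 1 ≤ Real.log n := (le_max_left _ _).trans h1
  have h4 : 1 / τ ≤ Real.log n := (le_max_right _ _).trans h1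
  have h5 : 1 / τ ≤ Real.log n ^ 2 := by nlinarith
  have h6 : x * (1 / τ) ≤ 1 := (mul_le_mul_of_nonneg_left h5 hx).trans hxn
  rwa [mul_one_div, div_le_one hτ] at h6

/-- **(N1)** the constants of the law change, logarithmic form -/
theorem law_const_log {β : ℝ} (hβ : 0 < β) : ∃ n₀ : ℕ, 2 ≤ n₀ ∧ ∀ n : ℕ, n₀ ≤ n →
    ∀ k : ℝ, k ^ 2 * n = β ^ 2 → ∀ x : ℝ,
    0 < x → x * Real.log n ^ 2 ≤ 1 → 288 * x ^ 2 * k ^ 2 * n ≤ 1 ∧
      ∃ p : ℕ, ((p : ℝ) + 1) ^ 2 * (18 * x ^ 2 * k ^ 2 * n) ≤ 1 ∧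
        3 / 2 ^ p ≤ ((n : ℝ) ^ 200)⁻¹ := by
  obtain ⟨n₀, h2, hn₀⟩ := log_ge (2050 * β + 1)
  refine ⟨n₀, h2, fun n hn k hk x hx hx7 => ?_⟩
  have hL := hn₀ n hn
  set L := Real.log n with hLd
  have hL1 : 1 ≤ L := by nlinarith
  have hLβ : 2050 * β ≤ L := by linarith
  have hn2 : 2 ≤ n := h2.trans hn
  have hnn : 0 < n := by omega
  have hn0 : 0 < (n : ℝ) := by exact_mod_cast hnn
  have hxL : x * L ≤ 1 := by
    have : x * L ≤ x * L ^ 2 := by
      refine mul_le_mul_of_nonneg_left ?_ hx.le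
      nlinarith
    linarith
  have hxβ : x * (2050 * β) ≤ 1 := (mul_le_mul_of_nonneg_left hLβ hx.le).trans hxL
  refine ⟨?_, ?_⟩
  · have h1 : 288 * x ^ 2 * k ^ 2 * n = 288 * (x * β) ^ 2 := by
      rw [show 288 * x ^ 2 * k ^ 2 * n = 288 * x ^ 2 * (k ^ 2 * n) by ring, hk]
      ring
    rw [h1]
    have h3 : 0 ≤ x * β := by positivity
    have h4 : x * β ≤ 1 / 2050 := by linarith
    nlinarith
  · set m := ⌊1 / (5 * β * x)⌋₊ with hm
    have hd : 0 < 5 * β * x := by positivity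
    have hm0 : (m : ℝ) ≤ 1 / (5 * β * x) := Nat.floor_le (by positivity)
    have hm1 : 1 / (5 * β * x) < m + 1 := Nat.lt_floor_add_one _
    have hq : 410 * L ≤ 1 / (5 * β * x) := by
      rw [le_div_iff₀ hd]
      have h3 : 410 * L * (5 * β * x) = (2050 * β) * (x * L) := by ring
      rw [h3]
      have h4 : (2050 * β) * (x * L) ≤ L * (x * L) :=
        mul_le_mul_of_nonneg_right hLβ (by positivity)
      have h5 : L * (x * L) = x * L ^ 2 := by ring
      linarith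
    have hm2 : 1 ≤ m := by
      have : (0 : ℝ) < m := by linarith
      exact_mod_cast this
    have e1 : (((m - 1 : ℕ) : ℝ) + 1) = m := by
      rw [Nat.cast_sub hm2]; push_cast; ring
    refine ⟨m - 1, ?_, ?_⟩
    · rw [e1]
      have h1 : 18 * x ^ 2 * k ^ 2 * n = 18 * (x * β) ^ 2 := by
        rw [show 18 * x ^ 2 * k ^ 2 * n = 18 * x ^ 2 * (k ^ 2 * n) by ring, hk]
        ring
      rw [h1]
      have h3 : (m : ℝ) * (x * β) ≤ 1 / 5 := by
        calc (m : ℝ) * (x * β) ≤ 1 / (5 * β * x) * (x * β) :=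
              mul_le_mul_of_nonneg_right hm0 (by positivity)
          _ = 1 / 5 := by field_simp
      have h4 : 0 ≤ (m : ℝ) * (x * β) := by positivity
      calc (m : ℝ) ^ 2 * (18 * (x * β) ^ 2) = 18 * ((m : ℝ) * (x * β)) ^ 2 := by ring
        _ ≤ 18 * (1 / 5) ^ 2 := by
            gcongr
        _ ≤ 1 := by norm_num
    · have h1 : 3 * (n : ℝ) ^ 200 ≤ 2 ^ (m - 1) := by
        have h2 : (3 : ℝ) * (n : ℝ) ^ 200 ≤ Real.exp (2 + 200 * L) := by
          rw [Real.exp_add, mul_comm (200 : ℝ), Real.exp_mul, hLd, Real.exp_log hn0]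
          have h3 : (3 : ℝ) ≤ Real.exp 2 := by
            have := Real.add_one_le_exp (2 : ℝ)
            linarith
          have h4 : (n : ℝ) ^ (200 : ℝ) = (n : ℝ) ^ (200 : ℕ) := by norm_cast
          rw [h4]
          exact mul_le_mul_of_nonneg_right h3 (by positivity)
        have h5 : Real.exp (2 + 200 * L) ≤ 2 ^ (m - 1) := by
          have h6 : (2 : ℝ) ^ (m - 1) = Real.exp (((m - 1 : ℕ) : ℝ) * Real.log 2) := by
            rw [Real.exp_nat_mul, Real.exp_log (by norm_num)]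
          rw [h6]
          refine Real.exp_le_exp.2 ?_
          have h7 : (1 : ℝ) / 2 ≤ Real.log 2 := by
            have := Real.log_two_gt_d9
            linarith
          have h8 : 4 + 400 * L ≤ ((m - 1 : ℕ) : ℝ) := by
            linarith
          have h9 : ((m - 1 : ℕ) : ℝ) * (1 / 2) ≤ ((m - 1 : ℕ) : ℝ) * Real.log 2 :=
            mul_le_mul_of_nonneg_left h7 (Nat.cast_nonneg _)
          linarith
        exact h2.trans h5
      rw [div_le_iff₀ (by positivity), inv_mul_eq_div, le_div_iff₀ (by positivity)]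
      linarith

end Vale.Agent.P146.X9
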