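import Vale.Agent.P146.H797.H326_PrI
import Vale.Agent.P146.H797.H332_CRow
import Vale.Agent.P146.H797.H332_CRowS
import Vale.Agent.P146.H797.H546_Fw
import Vale.Agent.P146.H797.H546_FwS
import Vale.Agent.P146.H797.H604_HRowSk
import Vale.Agent.P146.H797.H632_LamD
import Vale.Agent.P146.H797.H632_LamE
import Vale.Agent.P146.H797.H706_D4b
import Vale.Agent.P146.H797.H706_D4c
import Vale.Agent.P146.H797.H706_LamSum
import Vale.Agent.P146.H797.H706_LawK
import Vale.Agent.P146.H797.H706_LawS
import Vale.Agent.P146.H797.H706_LawT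
import Vale.Agent.P146.H797.H712_Pos
import Vale.Agent.P146.H797.H816_SkT
import Vale.Agent.P146.H797.H826_LawP
import Vale.Agent.P146.H797.H941_HRowS
import Vale.Agent.P146.H797.H941_PrIS
import Vale.Agent.P146.H797.H941_SkTS
import Vale.Agent.P146.H797.OkS
import Vale.Agent.P146.X9.LawC

/-! All the base files with signed tilts. -/
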