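import Vale.Agent.P146.X9.Base
import Vale.Agent.P146.H706.LawK
import Vale.Agent.P146.H826.LawP
import Vale.Agent.P146.X9.H325_Fo

/-!
Calculus of the mean `En q F` of functions of the coordinates `K4 κ` (the basic rules are in
`H325.Fo`), and the form of the law change which is used for sums over pairs of rows.
-/

open MeasureTheory ProbabilityTheory

namespace Vale.Agent.P146.X9.H712

open Vale.Agent.P146.H712

open Vale.Agent.P157.Lv Vale.Agent.P146.H425 Vale.Agent.P146.R1 Vale.Agent.P146.R1C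
open Vale.Agent.P146.X9.H425 Vale.Agent.P146.X9.R1 Vale.Agent.P146.X9.R1C

set_option linter.unusedSectionVars false

variable {κ : Type} [Fintype κ] [DecidableEq κ] {q : Par} {F : (κ → ℝ) → ℝ}
  {D : κ → (κ → ℝ) → ℝ} {B L : ℝ} {f g : (K4 κ → ℝ) → ℝ}

lemma int_dens (h : C11 F D B L) (hx : 0 < q.x) (hf : EG f) :
    Integrable (fun w => dens q F w * f w) (gI (K4 κ)) := ((eg_dens h hx).mul hf).integrable

lemma En_sub (h : C11 F D B L) (hx : 0 < q.x) (hf : EG f) (hg : EG g) :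
    En q F (fun w => f w - g w) = En q F f - En q F g := by
  unfold En Ew
  simp only [mul_sub]
  rw [integral_sub (int_dens h hx hf) (int_dens h hx hg), sub_div]

lemma En_sum (h : C11 F D B L) (hx : 0 < q.x) {α : Type*} (s : Finset α)
    {f : α → (K4 κ → ℝ) → ℝ} (hf : ∀ i ∈ s, EG (f i)) :
    En q F (fun w => ∑ i ∈ s, f i w) = ∑ i ∈ s, En q F (f i) := by
  classical
  induction s using Finset.induction_on with
  | empty => simpa using En_const h hx 0
  | insert a s ha ih =>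
    simp only [Finset.sum_insert ha]
    rw [En_add h hx (hf a (Finset.mem_insert_self a s))
      (EG.sum s fun i hi => hf i (Finset.mem_insert_of_mem hi)),
      ih fun i hi => hf i (Finset.mem_insert_of_mem hi)]

/-- The law change in the direction clean at most full, for a set `R` of couplings. -/
def LLow (q : Par) (F : (κ → ℝ) → ℝ) (R : Finset κ) (ε : ℝ) : Prop :=
  ∀ f : (K4 κ → ℝ) → ℝ, EG f → ∀ K : ℝ, (∀ w, 0 ≤ f w) → (∀ w, f w ≤ K) →
    En q F (Av (lf R) f) ≤ 2 * En q F f + ε * K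

/-- The law change in the direction full at most clean, for a set `R` of couplings. -/
def LUp (q : Par) (F : (κ → ℝ) → ℝ) (R : Finset κ) (ε : ℝ) : Prop :=
  ∀ f : (K4 κ → ℝ) → ℝ, EG f → ∀ K : ℝ, (∀ w, 0 ≤ f w) → (∀ w, f w ≤ K) →
    En q F f ≤ 2 * En q F (Av (lf R) f) + ε * K

theorem llow {R : Finset κ} (h : C11 F D B L) (hq : q.OkS) {Bd l : ℝ}
    (hR : ∀ z, ∑ e ∈ R, D e z ^ 2 ≤ Bd) (hl0 : 0 ≤ l) (hl : 9 * q.x ^ 2 * Bd ≤ l ^ 2) (p : ℕ)
    (hp : ((p : ℝ) + 1) ^ 2 * l ^ 2 ≤ 1) : LLow q F R (3 / 2 ^ p) := by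
  intro f hf K h0 hK
  have h1 := law_low_s h hq hR hl0 hl p hp hf h0 hK
  have hE := Ew_one_pos (q := q) h hq.x0
  unfold En
  rw [div_le_iff₀ hE]
  refine h1.trans (le_of_eq ?_)
  have e1 : Ew q F f / Ew q F (fun _ => 1) * Ew q F (fun _ => 1) = Ew q F f :=
    div_mul_cancel₀ _ hE.ne'
  rw [add_mul, mul_assoc, e1]
  ring

theorem lup {R : Finset κ} (h : C11 F D B L) (hq : q.OkS) {Bd l : ℝ}
    (hR : ∀ z, ∑ e ∈ R, D e z ^ 2 ≤ Bd) (hl0 : 0 ≤ l) (hl : 9 * q.x ^ 2 * Bd ≤ l ^ 2) (p : ℕ)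
    (hp : ((p : ℝ) + 1) ^ 2 * l ^ 2 ≤ 1) : LUp q F R (3 / 2 ^ p) := by
  intro f hf K h0 hK
  have h1 := law_up_s h hq hR hl0 hl p hp hf h0 hK
  have hE := Ew_one_pos (q := q) h hq.x0
  unfold En
  rw [div_le_iff₀ hE]
  refine h1.trans (le_of_eq ?_)
  have e1 : Ew q F (Av (lf R) f) / Ew q F (fun _ => 1) * Ew q F (fun _ => 1) =
      Ew q F (Av (lf R) f) := div_mul_cancel₀ _ hE.ne'
  rw [add_mul, mul_assoc, e1]
  ring

end Vale.Agent.P146.X9.H712
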