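import Vale.Agent.P146.X9.Base
import Vale.Agent.P146.X9.H633_Blk
import Vale.Agent.P146.H645.CSys
import Vale.Agent.P146.H941.CDefS

/-!
Plan R1, block C, bulk transfer for a position system: the averaged matrix of the bulk sites is
almost of rank one, with the top eigenvector `v`.
-/

open MeasureTheory ProbabilityTheory Matrix

namespace Vale.Agent.P146.X9.R1S

open Vale.Agent.P146.R1S

open Vale.Agent.P157.Lv Vale.Agent.P146.H425 Vale.Agent.P146.H325 Vale.Agent.P146.H332
  Vale.Agent.P146.H522 Vale.Agent.P146.H712 Vale.Agent.P146.H633 Vale.Agent.P146.R1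
  Vale.Agent.P146.R1C
open Vale.Agent.P146.X9.H425 Vale.Agent.P146.X9.H325 Vale.Agent.P146.X9.H332 Vale.Agent.P146.X9.H522 Vale.Agent.P146.X9.H712 Vale.Agent.P146.X9.H633 Vale.Agent.P146.X9.R1 Vale.Agent.P146.X9.R1C

set_option linter.unusedSectionVars false
set_option linter.unusedDecidableInType false

variable {n : ℕ} {k x : ℝ}

/-! ### restriction to the bulk sites -/

section mask

/-- the indicator of the bulk sites -/
def mk (b b' i : Fin n) : ℝ := if i = b ∨ i = b' then 0 else 1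

lemma mk_sq (b b' i : Fin n) : mk b b' i ^ 2 = mk b b' i := by
  unfold mk; split_ifs <;> norm_num

lemma mk_nonneg (b b' i : Fin n) : 0 ≤ mk b b' i := by
  unfold mk; split_ifs <;> norm_num

lemma mk_le (b b' i : Fin n) : mk b b' i ≤ 1 := by
  unfold mk; split_ifs <;> norm_num

/-- a matrix restricted to the bulk sites -/
def bq (b b' : Fin n) (M : Matrix (Fin n) (Fin n) ℝ) : Matrix (Fin n) (Fin n) ℝ :=
  fun i j => if (i = b ∨ i = b') ∨ j = b ∨ j = b' then 0 else M i j

lemma bq_eq (b b' : Fin n) (M : Matrix (Fin n) (Fin n) ℝ) (i j : Fin n) :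
    bq b b' M i j = mk b b' i * mk b b' j * M i j := by
  unfold bq mk
  by_cases h1 : i = b ∨ i = b' <;> by_cases h2 : j = b ∨ j = b' <;> simp [h1, h2]

/-- a 4-tensor restricted to the bulk sites -/
def bq4 (b b' : Fin n) (T : Fin n → Fin n → Fin n → Fin n → ℝ) :
    Fin n → Fin n → Fin n → Fin n → ℝ :=
  fun i j p l => mk b b' i * mk b b' j * mk b b' p * mk b b' l * T i j p l

/-- the spins of the bulk sites -/
noncomputable def ubq (b b' : Fin n) (σ : Fin n → ℤˣ) (i : Fin n) : ℝ :=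
  if i = b ∨ i = b' then 0 else sp σ i

lemma ubq_eq (b b' : Fin n) (σ : Fin n → ℤˣ) (i : Fin n) :
    ubq b b' σ i = mk b b' i * sp σ i := by
  unfold ubq mk
  by_cases h1 : i = b ∨ i = b' <;> simp [h1]

lemma fr_bq_le (b b' : Fin n) (M : Matrix (Fin n) (Fin n) ℝ) : fr (bq b b' M) ≤ fr M := by
  unfold fr
  refine Finset.sum_le_sum fun i _ => Finset.sum_le_sum fun j _ => ?_
  rw [bq_eq, mul_pow, mul_pow, mk_sq, mk_sq]
  have h1 := mul_le_one₀ (mk_le b b' i) (mk_nonneg b b' j) (mk_le b b' j)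
  have h2 := mul_le_mul_of_nonneg_right h1 (sq_nonneg (M i j))
  linarith

lemma n4_bq4_le (b b' : Fin n) (T : Fin n → Fin n → Fin n → Fin n → ℝ) :
    n4 (bq4 b b' T) ≤ n4 T := by
  unfold n4 bq4
  refine Finset.sum_le_sum fun i _ => Finset.sum_le_sum fun j _ =>
    Finset.sum_le_sum fun p _ => Finset.sum_le_sum fun l _ => ?_
  rw [mul_pow, mul_pow, mul_pow, mul_pow, mk_sq, mk_sq, mk_sq, mk_sq]
  have h1 := mul_le_one₀ (mk_le b b' i) (mk_nonneg b b' j) (mk_le b b' j)
  have h2 := mul_le_one₀ h1 (mk_nonneg b b' p) (mk_le b b' p)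
  have h3 := mul_le_one₀ h2 (mk_nonneg b b' l) (mk_le b b' l)
  have h4 := mul_le_mul_of_nonneg_right h3 (sq_nonneg (T i j p l))
  linarith

lemma KT_bq_le (b b' : Fin n) (T : Fin n → Fin n → Fin n → Fin n → ℝ)
    (M : Matrix (Fin n) (Fin n) ℝ) : KT (bq4 b b' T) (bq b b' M) ≤ KT T M := by
  have e : (fun i j k l => bq4 b b' T i j k l - bq b b' M i j * bq b b' M k l) =
      bq4 b b' fun i j k l => T i j k l - M i j * M k l := by
    funext i j k l
    unfold bq4
    rw [bq_eq, bq_eq]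
    ring
  rw [KT_eq, KT_eq, e]
  exact n4_bq4_le b b' _

lemma bq_T {b b' : Fin n} {M : Matrix (Fin n) (Fin n) ℝ} (hM : Mᵀ = M) :
    (bq b b' M)ᵀ = bq b b' M := by
  ext i j
  rw [transpose_apply, bq_eq, bq_eq]
  have : M j i = M i j := by rw [← transpose_apply M, hM]
  rw [this]; ring

lemma bq_psd {b b' : Fin n} {M : Matrix (Fin n) (Fin n) ℝ} (hM : Psd M) :
    Psd (bq b b' M) := by
  refine ⟨bq_T hM.1, fun c => (hM.2 fun i => mk b b' i * c i).trans (le_of_eq ?_)⟩
  refine Finset.sum_congr rfl fun i _ => Finset.sum_congr rfl fun j _ => ?_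
  rw [bq_eq]; ring

lemma bq_sub (b b' : Fin n) (M N : Matrix (Fin n) (Fin n) ℝ) :
    bq b b' (M - N) = bq b b' M - bq b b' N := by
  ext i j
  rw [Matrix.sub_apply, bq_eq, bq_eq, bq_eq, Matrix.sub_apply]; ring

lemma bq_smul (b b' : Fin n) (c : ℝ) (M : Matrix (Fin n) (Fin n) ℝ) :
    bq b b' (c • M) = c • bq b b' M := by
  ext i j
  rw [Matrix.smul_apply, bq_eq, bq_eq, Matrix.smul_apply, smul_eq_mul, smul_eq_mul]; ring

end mask

/-! ### the functional of the restricted matrix -/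

section gen

variable {κ : Type} [Fintype κ] [DecidableEq κ] {s : ℝ} {R : Finset κ}
  {C : (κ → ℝ) → Matrix (Fin n) (Fin n) ℝ} {K : (κ → ℝ) → ℝ}

lemma CB_bq (b b' : Fin n) (z : κ → ℝ) :
    CB s R (fun z => bq b b' (C z)) z = bq b b' (CB s R C z) := by
  ext i j
  have : (fun z => bq b b' (C z) i j) = fun z => mk b b' i * mk b b' j * C z i j :=
    funext fun z => bq_eq b b' (C z) i j
  show AvP s R (fun z => bq b b' (C z) i j) z = bq b b' (CB s R C z) i j
  rw [bq_eq, this, AvP_const_mul]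
  rfl

lemma Dlt_bq_le (b b' : Fin n) (z : κ → ℝ) :
    Dlt s R (fun z => bq b b' (C z)) z ≤ Dlt s R C z := by
  unfold Dlt
  rw [CB_bq, ← bq_sub]
  exact fr_bq_le b b' _

lemma eg_bq (b b' : Fin n) (hC : ∀ i j, EG fun z => C z i j) (i j : Fin n) :
    EG fun z => bq b b' (C z) i j := by
  have : (fun z => bq b b' (C z) i j) = fun z => mk b b' i * mk b b' j * C z i j :=
    funext fun z => bq_eq b b' (C z) i j
  rw [this]
  exact (hC i j).const_mul _

lemma Th_bq_le (b b' : Fin n) (hC : ∀ i j, EG fun z => C z i j) (z : κ → ℝ) :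
    Th s R (fun z => bq b b' (C z)) K z ≤ Th s R C K z := by
  have hq := eg_bq b b' hC
  have f1 := eg_frC hC
  have f2 := eg_frC hq
  have d1 := eg_Dlt hC s R
  have d2 := eg_Dlt hq s R
  have a1 : AvP s R (fun z => fr (bq b b' (C z))) z ≤ AvP s R (fun z => fr (C z)) z :=
    AvP_mono f2 f1 (fun z => fr_bq_le b b' _) z
  have a2 : AvP s R (Dlt s R fun z => bq b b' (C z)) z ≤ AvP s R (Dlt s R C) z :=
    AvP_mono d2 d1 (fun z => Dlt_bq_le b b' z) z
  have a3 : AvP s R (fun z => Dlt s R (fun z => bq b b' (C z)) z * fr (bq b b' (C z))) z ≤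
      AvP s R (fun z => Dlt s R C z * fr (C z)) z :=
    AvP_mono (d2.mul f2) (d1.mul f1) (fun z => mul_le_mul (Dlt_bq_le b b' z) (fr_bq_le b b' _)
      (frn _) (Dlt_nonneg z)) z
  have a4 := mul_le_mul a1 a2 (AvP_nonneg (fun z => Dlt_nonneg z) z)
    (AvP_nonneg (fun z => frn _) z)
  unfold Th
  linarith

end gen

/-! ### position systems -/

variable (S : CS n k x) (s : ℝ)

/-- the defect of the 4-tensor -/
noncomputable def KV (z : Pair n → ℝ) : ℝ := KT (S.T4 s z) (S.A s z)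

lemma eg_KV : EG (KV S s) := by
  unfold KV KT
  exact EG.sum _ fun i _ => EG.sum _ fun j _ => EG.sum _ fun p _ => EG.sum _ fun l _ =>
    ((S.eg_T4 s i j p l).sub ((S.eg_A s i j).mul (S.eg_A s p l))).pow 2

lemma KV_nonneg (z : Pair n → ℝ) : 0 ≤ KV S s z := KT_nonneg _ _

/-- `k² x² / 2 * KV ≤ rate` -/
lemma KV_le {s : ℝ} (hs : 0 < s) (z : Pair n → ℝ) :
    KV S s z ≤ 2 / (k ^ 2 * x ^ 2) * ∑ e : Pair n, fr (S.DA s e z) := S.kov_le hs z

/-- the restricted 4-tensor is the 4-tensor of the spins of the bulk -/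
lemma bq4_T4 (b b' : Fin n) (z : Pair n → ℝ) :
    bq4 b b' (S.T4 s z) = tX (S.mu s z) (ubq b b') := by
  funext i j p l
  unfold bq4 tX
  rw [S.T4_mu, Finset.mul_sum]
  refine Finset.sum_congr rfl fun σ _ => ?_
  simp only [ubq_eq]
  unfold pr
  ring

/-- the hypotheses of the bulk transfer for the bulk sites -/
lemma bh (b b' : Fin n) : BH (fun z => bq b b' (S.A s z)) (fun z => bq4 b b' (S.T4 s z))
    (KV S s) where
  egC := eg_bq b b' fun i j => S.eg_A s i j
  sy z := bq_T (S.A_T s z)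
  mid z i j p l := by
    unfold bq4
    rw [S.T4_23]; ring
  egT i j p l := (S.eg_T4 s i j p l).const_mul _
  egK := eg_KV S s
  le z := KT_bq_le b b' _ _

lemma bh1 : BH (S.A s) (S.T4 s) (KV S s) where
  egC i j := S.eg_A s i j
  sy z := S.A_T s z
  mid z i j p l := S.T4_23 s z i j p l
  egT i j p l := S.eg_T4 s i j p l
  egK := eg_KV S s
  le _ := le_rfl

/-- the averaged matrix of the bulk -/
noncomputable def CBq (b b' : Fin n) (z : Pair n → ℝ) : Matrix (Fin n) (Fin n) ℝ :=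
  bq b b' (CB s (row b ∪ row b') (S.A s) z)

/-- the mean of the squared norm of the matrix -/
noncomputable def FA (b b' : Fin n) (z : Pair n → ℝ) : ℝ :=
  AvP s (row b ∪ row b') (fun z => fr (S.A s z)) z

/-- the mean of the fourth power of the norm -/
noncomputable def QA (b b' : Fin n) (z : Pair n → ℝ) : ℝ :=
  AvP s (row b ∪ row b') (fun z => fr (S.A s z) ^ 2) z

/-- the mean of the defect of the 4-tensor -/
noncomputable def KA (b b' : Fin n) (z : Pair n → ℝ) : ℝ :=
  AvP s (row b ∪ row b') (KV S s) z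

/-- the variance of the matrix -/
noncomputable def DlA (b b' : Fin n) (z : Pair n → ℝ) : ℝ :=
  AvP s (row b ∪ row b') (Dlt s (row b ∪ row b') (S.A s)) z

/-- the smallness functional -/
noncomputable def ThA (b b' : Fin n) (z : Pair n → ℝ) : ℝ :=
  Th s (row b ∪ row b') (S.A s) (KV S s) z

lemma eg_FA (b b' : Fin n) : EG (FA S s b b') := eg_AvP (eg_frC fun i j => S.eg_A s i j) _ _

lemma eg_QA (b b' : Fin n) : EG (QA S s b b') :=
  eg_AvP ((eg_frC fun i j => S.eg_A s i j).pow 2) _ _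

lemma eg_KA (b b' : Fin n) : EG (KA S s b b') := eg_AvP (eg_KV S s) _ _

lemma eg_ThA (b b' : Fin n) : EG (ThA S s b b') :=
  eg_Th (fun i j => S.eg_A s i j) (eg_KV S s) _ _

lemma FA_nonneg (b b' : Fin n) (z : Pair n → ℝ) : 0 ≤ FA S s b b' z :=
  AvP_nonneg (fun _ => frn _) z

lemma QA_nonneg (b b' : Fin n) (z : Pair n → ℝ) : 0 ≤ QA S s b b' z :=
  AvP_nonneg (fun _ => sq_nonneg _) z

lemma KA_nonneg (b b' : Fin n) (z : Pair n → ℝ) : 0 ≤ KA S s b b' z :=
  AvP_nonneg (fun z => KV_nonneg S s z) z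

lemma ThA_nonneg (b b' : Fin n) (z : Pair n → ℝ) : 0 ≤ ThA S s b b' z := (bh1 S s).Th0 z

/-- **The full 4-tensor.** -/
theorem T4_avg_le (b b' : Fin n) (z : Pair n → ℝ) :
    AvP s (row b ∪ row b') (fun z => n4 (S.T4 s z)) z ≤
      2 * QA S s b b' z + 2 * KA S s b b' z := (bh1 S s).e1' z

/-- the mean gradient, restricted to the bulk, is psd and below `k CBq` -/
lemma MM_psd {s : ℝ} (hs : 0 < s) (b b' : Fin n) (z : Pair n → ℝ) :
    Psd (bq b b' (R1S.MM S s b b' z)) ∧
      Psd (k • CBq S s b b' z - bq b b' (R1S.MM S s b b' z)) := by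
  have hk := S.k0.le
  have e1 : ∀ (M : (Pair n → ℝ) → Matrix (Fin n) (Fin n) ℝ) (_ : ∀ i j, EG fun z => M z i j)
      (c : Fin n → ℝ), ∑ i, ∑ j, c i * c j * AvP s (row b ∪ row b') (fun z => M z i j) z =
      AvP s (row b ∪ row b') (fun z => ∑ i, ∑ j, c i * c j * M z i j) z := by
    intro M hM c
    rw [AvP_sum _ fun i _ => EG.sum _ fun j _ => (hM i j).const_mul _]
    refine Finset.sum_congr rfl fun i _ => ?_
    rw [AvP_sum _ fun j _ => (hM i j).const_mul _]
    exact Finset.sum_congr rfl fun j _ => (AvP_const_mul _ _ _).symm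
  have e2 : ∀ (M : Matrix (Fin n) (Fin n) ℝ) (c : Fin n → ℝ),
      ∑ i, ∑ j, c i * c j * M i j = qf (fun i j => M i j) c := by
    intro M c
    unfold qf
    exact Finset.sum_congr rfl fun i _ => Finset.sum_congr rfl fun j _ => by ring
  have hH := S.eg_H hs b
  have hA := S.eg_A s
  constructor
  · refine bq_psd ⟨?_, fun c => ?_⟩
    · ext i j
      rw [transpose_apply]
      unfold R1S.MM
      congr 1
      exact AvP_congr (fun z => S.H_comm s b z j i) z
    · have : ∑ i, ∑ j, c i * c j * R1S.MM S s b b' z i j = k * ∑ i, ∑ j, c i * c j *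
          AvP s (row b ∪ row b') (fun z => S.H s b z i j) z := by
        rw [Finset.mul_sum]
        refine Finset.sum_congr rfl fun i _ => ?_
        rw [Finset.mul_sum]
        refine Finset.sum_congr rfl fun j _ => ?_
        unfold R1S.MM; ring
      rw [this, e1 (S.H s b) hH c]
      refine mul_nonneg hk (AvP_nonneg (fun z => ?_) z)
      rw [e2]
      exact S.H_nonneg hs b z c
  · unfold CBq
    rw [← bq_smul, ← bq_sub]
    refine bq_psd ⟨?_, fun c => ?_⟩
    · ext i j
      rw [transpose_apply, Matrix.sub_apply, Matrix.sub_apply, Matrix.smul_apply,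
        Matrix.smul_apply]
      have h1 := CB_T (s := s) (R := row b ∪ row b') (S.A_T s) z
      have h2 : CB s (row b ∪ row b') (S.A s) z j i = CB s (row b ∪ row b') (S.A s) z i j := by
        rw [← transpose_apply (CB s (row b ∪ row b') (S.A s) z), h1]
      rw [h2]
      congr 1
      unfold R1S.MM
      congr 1
      exact AvP_congr (fun z => S.H_comm s b z j i) z
    · have : ∑ i, ∑ j, c i * c j * (k • CB s (row b ∪ row b') (S.A s) z - R1S.MM S s b b' z) i j =
          k * (∑ i, ∑ j, c i * c j * AvP s (row b ∪ row b') (fun z => S.A s z i j) z -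
            ∑ i, ∑ j, c i * c j * AvP s (row b ∪ row b') (fun z => S.H s b z i j) z) := by
        rw [← Finset.sum_sub_distrib, Finset.mul_sum]
        refine Finset.sum_congr rfl fun i _ => ?_
        rw [← Finset.sum_sub_distrib, Finset.mul_sum]
        refine Finset.sum_congr rfl fun j _ => ?_
        rw [Matrix.sub_apply, Matrix.smul_apply, smul_eq_mul]
        unfold R1S.MM CB
        ring
      rw [this, e1 (S.H s b) hH c, e1 (S.A s) hA c]
      refine mul_nonneg hk ?_
      rw [← AvP_sub (EG.sum _ fun i _ => EG.sum _ fun j _ => (hA i j).const_mul _)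
        (EG.sum _ fun i _ => EG.sum _ fun j _ => (hH i j).const_mul _)]
      refine AvP_nonneg (fun z => ?_) z
      rw [e2, e2]
      exact sub_nonneg.2 (S.H_le hs b z c)

lemma psd_CB (b b' : Fin n) (z : Pair n → ℝ) : Psd (CB s (row b ∪ row b') (S.A s) z) := by
  refine ⟨CB_T (S.A_T s) z, fun c => ?_⟩
  have e1 : ∑ i, ∑ j, c i * c j * CB s (row b ∪ row b') (S.A s) z i j =
      AvP s (row b ∪ row b') (fun z => ∑ i, ∑ j, c i * c j * S.A s z i j) z := by
    rw [AvP_sum _ fun i _ => EG.sum _ fun j _ => (S.eg_A s i j).const_mul _]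
    refine Finset.sum_congr rfl fun i _ => ?_
    rw [AvP_sum _ fun j _ => (S.eg_A s i j).const_mul _]
    exact Finset.sum_congr rfl fun j _ => (AvP_const_mul _ _ _).symm
  rw [e1]
  exact AvP_nonneg (fun z => (S.psd_A s z).2 c) z

/-- The properties of the top eigenvector `v` of the bulk at the position `z`, time `s`. -/
structure Bv (b b' : Fin n) (z : Pair n → ℝ) (v : Fin n → ℝ) : Prop where
  v1 : ∑ i, v i ^ 2 = 1
  vb : v b = 0
  vb' : v b' = 0
  top : fr (pj v * CBq S s b b' z * pj v) * fr (CBq S s b b' z) ≤ dfc (CBq S s b b' z)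

lemma KA_le_ThA (b b' : Fin n) (z : Pair n → ℝ) : KA S s b b' z ≤ ThA S s b b' z := by
  have h1 := (bh1 S s).FD0 (s := s) (R := row b ∪ row b') z
  have h2 := (bh1 S s).DF0 (s := s) (R := row b ∪ row b') z
  unfold KA ThA Th
  linarith

/-- **Existence of the vector.** -/
theorem exists_Bv (h3 : 3 ≤ n) (b b' : Fin n) (z : Pair n → ℝ) :
    ∃ v, Bv S s b b' z v := by
  obtain ⟨c, hc⟩ : ∃ c : Fin n, ¬ (c = b ∨ c = b') := by
    by_contra hcon
    push Not at hcon
    have h1 : (Finset.univ : Finset (Fin n)) ⊆ {b, b'} := by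
      intro c _
      rcases hcon c with h | h <;> simp [h]
    have h2 := Finset.card_le_card h1
    rw [Finset.card_univ, Fintype.card_fin] at h2
    have h4 : ({b, b'} : Finset (Fin n)).card ≤ 2 := Finset.card_le_two
    omega
  obtain ⟨v, h1, h2, h3⟩ := top_vec_off (A := CBq S s b b' z)
    (bq_T (psd_CB S s b b' z).1) (S := fun i => i = b ∨ i = b')
    (fun i hi j => by
      unfold CBq bq
      rw [if_pos (Or.inl hi)]) hc
  exact ⟨v, h1, h2 b (Or.inl rfl), h2 b' (Or.inr rfl), h3⟩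

variable {S s} {b b' : Fin n} {z : Pair n → ℝ} {v : Fin n → ℝ}

private lemma Bv.top' (h : Bv S s b b' z v) :
    fr (pj v * CB s (row b ∪ row b') (fun z => bq b b' (S.A s z)) z * pj v) *
      fr (CB s (row b ∪ row b') (fun z => bq b b' (S.A s z)) z) ≤
      dfc (CB s (row b ∪ row b') (fun z => bq b b' (S.A s z)) z) := by
  rw [CB_bq]
  exact h.top

private lemma Th_q (b b' : Fin n) (z : Pair n → ℝ) :
    Th s (row b ∪ row b') (fun z => bq b b' (S.A s z)) (KV S s) z ≤ ThA S s b b' z :=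
  Th_bq_le b b' (fun i j => S.eg_A s i j) z

private lemma FA_q (b b' : Fin n) (z : Pair n → ℝ) :
    AvP s (row b ∪ row b') (fun z => fr (bq b b' (S.A s z))) z ≤ FA S s b b' z :=
  AvP_mono (eg_frC (eg_bq b b' fun i j => S.eg_A s i j)) (eg_frC fun i j => S.eg_A s i j)
    (fun _ => fr_bq_le b b' _) z

/-- the defect of the averaged matrix of the bulk -/
theorem Bv.hC (h : Bv S s b b' z v) :
    fr (pj v * CBq S s b b' z * pj v) * fr (CBq S s b b' z) ≤ 8 * ThA S s b b' z := by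
  refine h.top.trans ?_
  have h1 := (bh S s b b').bt0 (s := s) (R := row b ∪ row b') z
  rw [CB_bq] at h1
  have h2 := Th_q (S := S) (s := s) b b' z
  unfold CBq
  linarith

/-- **(E0)** -/
theorem Bv.E0 (h : Bv S s b b' z v) (hs : 0 < s) :
    fr (bq b b' (R1S.MM S s b b' z) -
      (v ⬝ᵥ (bq b b' (R1S.MM S s b b' z) *ᵥ v)) • vecMulVec v v) ≤
      k ^ 2 * min (9 * √(ThA S s b b' z)) (FA S s b b' z) := by
  obtain ⟨h1, h2⟩ := MM_psd S hs b b' z
  have h2' : Psd (k • CB s (row b ∪ row b') (fun z => bq b b' (S.A s z)) z -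
      bq b b' (R1S.MM S s b b' z)) := by
    rw [CB_bq]
    exact h2
  have h3 := (bh S s b b').e0 h.v1 z h.top' h1 h2'
  refine h3.trans (mul_le_mul_of_nonneg_left (min_le_min ?_ (FA_q b b' z)) (sq_nonneg k))
  exact mul_le_mul_of_nonneg_left (Real.sqrt_le_sqrt (Th_q b b' z)) (by norm_num)

/-- the norm of the mean gradient -/
theorem fr_MM_le (hs : 0 < s) (b b' : Fin n) (z : Pair n → ℝ) :
    fr (bq b b' (R1S.MM S s b b' z)) ≤ k ^ 2 * FA S s b b' z := by
  obtain ⟨h1, h2⟩ := MM_psd S hs b b' z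
  have h3 := fr_mono h1 h2
  have e : fr (k • CBq S s b b' z) = k ^ 2 * fr (CBq S s b b' z) := by
    unfold fr
    simp only [Matrix.smul_apply, smul_eq_mul, mul_pow, Finset.mul_sum]
  rw [e] at h3
  refine h3.trans (mul_le_mul_of_nonneg_left ?_ (sq_nonneg k))
  exact (fr_bq_le b b' _).trans (fr_CB_le (fun i j => S.eg_A s i j) z)

/-- **(E1)** the 4-tensor of the bulk orthogonal to `v` -/
theorem Bv.E1 (h : Bv S s b b' z v) :
    AvP s (row b ∪ row b') (fun z => n4 (rho4 (pj v) (bq4 b b' (S.T4 s z)))) z ≤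
      36 * ThA S s b b' z := by
  have h3 := (bh S s b b').e1 h.v1 z h.top'
  have h4 := Th_q (S := S) (s := s) b b' z
  linarith

/-- the same for the 4-tensor of the spins of the bulk -/
theorem Bv.E1t (h : Bv S s b b' z v) :
    AvP s (row b ∪ row b') (fun z => n4 (rho4 (pj v) (tX (S.mu s z) (ubq b b')))) z ≤
      36 * ThA S s b b' z := by
  refine le_trans (le_of_eq ?_) h.E1
  exact AvP_congr (fun z => by rw [bq4_T4]) z

/-- the same as an average over two replicas -/
theorem Bv.E1' (h : Bv S s b b' z v) :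
    AvP s (row b ∪ row b') (fun z => ∑ σ, ∑ τ, S.mu s z σ * S.mu s z τ *
      (ubq b b' σ ⬝ᵥ (pj v *ᵥ ubq b b' τ)) ^ 4) z ≤ 36 * ThA S s b b' z := by
  refine le_trans (le_of_eq ?_) h.E1
  refine AvP_congr (fun z => ?_) z
  rw [rep_P _ _ h.v1, bq4_T4]

/-- the full 4-tensor as an average over two replicas -/
theorem T4_rep_le (b b' : Fin n) (z : Pair n → ℝ) :
    AvP s (row b ∪ row b') (fun z => ∑ σ, ∑ τ, S.mu s z σ * S.mu s z τ *
      (ubq b b' σ ⬝ᵥ ubq b b' τ) ^ 4) z ≤ 2 * QA S s b b' z + 2 * KA S s b b' z := by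
  refine le_trans ?_ (T4_avg_le S s b b' z)
  refine le_trans (le_of_eq ?_) (AvP_mono (eg_n4 fun i j p l => (S.eg_T4 s i j p l).const_mul
    (mk b b' i * mk b b' j * mk b b' p * mk b b' l)) (eg_n4 fun i j p l => S.eg_T4 s i j p l)
    (fun z => n4_bq4_le b b' (S.T4 s z)) z)
  refine AvP_congr (fun z => ?_) z
  rw [← n4_tX, ← bq4_T4]
  rfl

/-- the top eigenvalue -/
noncomputable def lamq (S : CS n k x) (s : ℝ) (b b' : Fin n) (z : Pair n → ℝ)
    (v : Fin n → ℝ) : ℝ := v ⬝ᵥ (CBq S s b b' z *ᵥ v)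

lemma lamq_nonneg (b b' : Fin n) (z : Pair n → ℝ) (v : Fin n → ℝ) :
    0 ≤ lamq S s b b' z v := qf_nonneg (bq_psd (psd_CB S s b b' z)) v

/-- **(E2)** the averaged matrix of the bulk is almost `lam v vᵀ`. -/
theorem Bv.E2 (h : Bv S s b b' z v) :
    fr (CBq S s b b' z - lamq S s b b' z v • vecMulVec v v) ≤ 9 * √(ThA S s b b' z) := by
  have h1 : Psd (CBq S s b b' z) := bq_psd (psd_CB S s b b' z)
  have h2 : Psd ((1 : ℝ) • CB s (row b ∪ row b') (fun z => bq b b' (S.A s z)) z -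
      CBq S s b b' z) := by
    rw [CB_bq, one_smul]
    unfold CBq
    rw [sub_self]
    refine ⟨by simp, fun c => ?_⟩
    simp
  have h3 := (bh S s b b').e0 h.v1 z h.top' h1 h2
  rw [one_pow, one_mul] at h3
  refine h3.trans ((min_le_left _ _).trans ?_)
  exact mul_le_mul_of_nonneg_left (Real.sqrt_le_sqrt (Th_q b b' z)) (by norm_num)

/-- `lam² ≤ |CBq|² ≤ lam² + 9 √Θ` -/
theorem Bv.lam_le (h : Bv S s b b' z v) : lamq S s b b' z v ^ 2 ≤ fr (CBq S s b b' z) ∧
    fr (CBq S s b b' z) ≤ lamq S s b b' z v ^ 2 + 9 * √(ThA S s b b' z) := by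
  have h1 := fr_split h.v1 (CBq S s b b' z)
  have h2 := h.E2
  have h3 := frn (CBq S s b b' z - lamq S s b b' z v • vecMulVec v v)
  unfold lamq at *
  constructor <;> linarith

lemma fr_CBq_le (b b' : Fin n) (z : Pair n → ℝ) : fr (CBq S s b b' z) ≤ FA S s b b' z :=
  (fr_bq_le b b' _).trans (fr_CB_le (fun i j => S.eg_A s i j) z)

/-- the rows of `b`, `b'` in the norm -/
lemma fr_le_bq {M : Matrix (Fin n) (Fin n) ℝ} (hM : Mᵀ = M) (b b' : Fin n) :
    fr M ≤ fr (bq b b' M) + 2 * (vn (H816.col M b) + vn (H816.col M b')) := by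
  have hs : ∀ i j, M i j = M j i := fun i j => by rw [← transpose_apply M, hM]
  have h1 : ∀ i j, M i j ^ 2 ≤ bq b b' M i j ^ 2 + ((if i = b then M i j ^ 2 else 0) +
      (if i = b' then M i j ^ 2 else 0) + ((if j = b then M i j ^ 2 else 0) +
        (if j = b' then M i j ^ 2 else 0))) := by
    intro i j
    have hn := sq_nonneg (M i j)
    have hz : ∀ p : Prop, [Decidable p] → 0 ≤ if p then M i j ^ 2 else 0 := by
      intro p _; split_ifs
      · exact hn
      · exact le_rfl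
    unfold bq
    by_cases hm : (i = b ∨ i = b') ∨ j = b ∨ j = b'
    · rw [if_pos hm]
      have e1 := hz (i = b)
      have e2 := hz (i = b')
      have e3 := hz (j = b)
      have e4 := hz (j = b')
      rcases hm with (h | h) | (h | h)
      · rw [if_pos h] at e1 ⊢; linarith
      · rw [if_pos h] at e2 ⊢; linarith
      · rw [if_pos h] at e3 ⊢; linarith
      · rw [if_pos h] at e4 ⊢; linarith
    · rw [if_neg hm]
      have e1 := hz (i = b)
      have e2 := hz (i = b')
      have e3 := hz (j = b)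
      have e4 := hz (j = b')
      linarith
  have h2 : ∀ c : Fin n, ∑ i, ∑ j, (if i = c then M i j ^ 2 else 0) = vn (H816.col M c) := by
    intro c
    rw [Finset.sum_comm]
    simp only [Finset.sum_ite_eq', Finset.mem_univ, if_true]
    unfold vn H816.col
    exact Finset.sum_congr rfl fun j _ => by rw [hs]
  have h3 : ∀ c : Fin n, ∑ i, ∑ j, (if j = c then M i j ^ 2 else 0) = vn (H816.col M c) := by
    intro c
    simp only [Finset.sum_ite_eq', Finset.mem_univ, if_true]
    rfl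
  have h4 := Finset.sum_le_sum fun i (_ : i ∈ Finset.univ) => Finset.sum_le_sum
    fun j (_ : j ∈ Finset.univ) => h1 i j
  simp only [Finset.sum_add_distrib] at h4
  rw [h2, h2, h3, h3] at h4
  unfold fr
  linarith

/-- the mean norm in terms of the top eigenvalue -/
theorem Bv.FA_le (h : Bv S s b b' z v) : FA S s b b' z ≤
    lamq S s b b' z v ^ 2 + 9 * √(ThA S s b b' z) + DlA S s b b' z +
      2 * AvP s (row b ∪ row b') (fun z => vn (H816.col (S.A s z) b) +
        vn (H816.col (S.A s z) b')) z := by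
  have hq := eg_bq b b' fun i j => S.eg_A s i j
  have g1 : EG fun z => vn (H816.col (S.A s z) b) + vn (H816.col (S.A s z) b') := by
    unfold vn H816.col
    exact (EG.sum _ fun i _ => (S.eg_A s i b).pow 2).add (EG.sum _ fun i _ =>
      (S.eg_A s i b').pow 2)
  have h1 : FA S s b b' z ≤ AvP s (row b ∪ row b') (fun z => fr (bq b b' (S.A s z)) +
      2 * (vn (H816.col (S.A s z) b) + vn (H816.col (S.A s z) b'))) z :=
    AvP_mono (eg_frC fun i j => S.eg_A s i j) ((eg_frC hq).add (g1.const_mul 2))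
      (fun z => fr_le_bq (S.A_T s z) b b') z
  rw [AvP_add (eg_frC hq) (g1.const_mul 2), AvP_const_mul] at h1
  have h2 := bias (s := s) (R := row b ∪ row b') hq z
  rw [CB_bq] at h2
  have h3 : AvP s (row b ∪ row b') (Dlt s (row b ∪ row b') fun z => bq b b' (S.A s z)) z ≤
      DlA S s b b' z :=
    AvP_mono (eg_Dlt hq _ _) (eg_Dlt (fun i j => S.eg_A s i j) _ _)
      (fun z => Dlt_bq_le b b' z) z
  have h4 := h.lam_le.2
  unfold CBq at h4
  linarith

/-- **(E3)** the variance of the square of the projection of the spins on `v`. -/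
theorem Bv.E3 (h : Bv S s b b' z v) :
    AvP s (row b ∪ row b') (fun z' => ∑ σ, S.mu s z' σ *
      ((v ⬝ᵥ ubq b b' σ) ^ 2 - lamq S s b b' z v) ^ 2) z ≤
      √(KA S s b b' z) + DlA S s b b' z := by
  have hq := eg_bq b b' fun i j => S.eg_A s i j
  have h1 := (bh S s b b').e3 h.v1 z (l := lamq S s b b' z v) (by
    rw [CB_bq]; rfl)
  have h3 : AvP s (row b ∪ row b') (Dlt s (row b ∪ row b') fun z => bq b b' (S.A s z)) z ≤
      DlA S s b b' z :=
    AvP_mono (eg_Dlt hq _ _) (eg_Dlt (fun i j => S.eg_A s i j) _ _)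
      (fun z => Dlt_bq_le b b' z) z
  refine le_trans (le_of_eq ?_) (h1.trans (add_le_add le_rfl h3))
  refine AvP_congr (fun z' => ?_) z
  set l := lamq S s b b' z v
  have a1 : ∀ σ, (v ⬝ᵥ ubq b b' σ) ^ 4 = ∑ i, ∑ j, ∑ p, ∑ m, v i * v j * v p * v m *
      (ubq b b' σ i * ubq b b' σ j * ubq b b' σ p * ubq b b' σ m) := by
    intro σ
    have : (v ⬝ᵥ ubq b b' σ) ^ 4 = (v ⬝ᵥ ubq b b' σ) * ((v ⬝ᵥ ubq b b' σ) *
      ((v ⬝ᵥ ubq b b' σ) * (v ⬝ᵥ ubq b b' σ))) := by ring
    rw [this]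
    unfold dotProduct
    rw [Finset.sum_mul]
    refine Finset.sum_congr rfl fun i _ => ?_
    rw [Finset.sum_mul, Finset.mul_sum]
    refine Finset.sum_congr rfl fun j _ => ?_
    rw [Finset.sum_mul, Finset.mul_sum, Finset.mul_sum]
    refine Finset.sum_congr rfl fun p _ => ?_
    rw [Finset.mul_sum, Finset.mul_sum, Finset.mul_sum]
    exact Finset.sum_congr rfl fun m _ => by ring
  have a2 : ∀ σ, (v ⬝ᵥ ubq b b' σ) ^ 2 = ∑ i, ∑ j, v i * v j *
      (ubq b b' σ i * ubq b b' σ j) := by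
    intro σ
    rw [_root_.sq]
    unfold dotProduct
    rw [Finset.sum_mul_sum]
    exact Finset.sum_congr rfl fun i _ => Finset.sum_congr rfl fun j _ => by ring
  have b1 : ∑ σ, S.mu s z' σ * (v ⬝ᵥ ubq b b' σ) ^ 4 =
      ∑ i, ∑ j, ∑ p, ∑ m, v i * v j * v p * v m * bq4 b b' (S.T4 s z') i j p m := by
    simp only [a1, bq4_T4, tX, Finset.mul_sum]
    rw [Finset.sum_comm]
    refine Finset.sum_congr rfl fun i _ => ?_
    rw [Finset.sum_comm]
    refine Finset.sum_congr rfl fun j _ => ?_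
    rw [Finset.sum_comm]
    refine Finset.sum_congr rfl fun p _ => ?_
    rw [Finset.sum_comm]
    exact Finset.sum_congr rfl fun m _ => Finset.sum_congr rfl fun σ _ => by ring
  have b2 : ∑ σ, S.mu s z' σ * (v ⬝ᵥ ubq b b' σ) ^ 2 =
      v ⬝ᵥ (bq b b' (S.A s z') *ᵥ v) := by
    have c1 : v ⬝ᵥ (bq b b' (S.A s z') *ᵥ v) =
        ∑ i, ∑ j, v i * v j * bq b b' (S.A s z') i j := by
      unfold dotProduct mulVec dotProduct
      refine Finset.sum_congr rfl fun i _ => ?_
      rw [Finset.mul_sum]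
      exact Finset.sum_congr rfl fun j _ => by ring
    rw [c1]
    simp only [a2, bq_eq, S.A_mu, Finset.mul_sum]
    rw [Finset.sum_comm]
    refine Finset.sum_congr rfl fun i _ => ?_
    rw [Finset.sum_comm]
    refine Finset.sum_congr rfl fun j _ => Finset.sum_congr rfl fun σ _ => ?_
    rw [ubq_eq, ubq_eq]
    unfold pr
    ring
  have b3 : ∀ σ, S.mu s z' σ * ((v ⬝ᵥ ubq b b' σ) ^ 2 - l) ^ 2 =
      S.mu s z' σ * (v ⬝ᵥ ubq b b' σ) ^ 4 - 2 * l * (S.mu s z' σ * (v ⬝ᵥ ubq b b' σ) ^ 2) +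
        l ^ 2 * S.mu s z' σ := by
    intro σ; ring
  simp only [b3, Finset.sum_add_distrib, Finset.sum_sub_distrib, ← Finset.mul_sum]
  rw [b1, b2, S.mu1, mul_one]

end Vale.Agent.P146.X9.R1S
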