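import Vale.Agent.P146.X9.Base
import Vale.Agent.P146.X9.H191_KapS
import Vale.Agent.P146.H722.Kap9
import Vale.Agent.P146.H504.Cum6

/-!
Plan R1, row (K) at a fixed bulk: `KapG`, the SK model for `β < 3/2`, and the general form with the
bound of the third coefficient as the only model input.
-/

open MeasureTheory ProbabilityTheory Matrix

namespace Vale.Agent.P146.X9.H191

open Vale.Agent.P146.H191

open Vale.Agent.P157.Lv Vale.Agent.P146.H425 Vale.Agent.P146.H325 Vale.Agent.P146.H332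
  Vale.Agent.P146.H522 Vale.Agent.P146.H712 Vale.Agent.P146.H633 Vale.Agent.P146.R1
  Vale.Agent.P146.R1C Vale.Agent.P146.R1S Vale.Agent.P146.Cum Vale.Agent.P146.H816
open Vale.Agent.P146.X9.H425 Vale.Agent.P146.X9.H325 Vale.Agent.P146.X9.H332 Vale.Agent.P146.X9.H522 Vale.Agent.P146.X9.H712 Vale.Agent.P146.X9.H633 Vale.Agent.P146.X9.R1 Vale.Agent.P146.X9.R1C Vale.Agent.P146.X9.R1S Vale.Agent.P146.X9.H816

set_option linter.unusedSectionVars false

/-- **(K) on the good bulks** at the time `s`: the profile of the clean column in the direction of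
the top eigenvector has a nonlinear part. `L` is a lower bound of the size of the bulk, `X` is an
additional functional of the bulk. -/
def KapG {n : ℕ} {k x : ℝ} (S : CS n k x) (s τ κ L : ℝ)
    (X : Fin n → Fin n → (Pair n → ℝ) → ℝ) : Prop :=
  ∀ (b b' : Fin n) (z : Pair n → ℝ) (v : Fin n → ℝ), b ≠ b' → Bv S s b b' z v →
    0 < FA S s b b' z → L ≤ FA S s b b' z → ThA S s b b' z ≤ (τ * FA S s b b' z) ^ 2 →
    |1 + ee S s b b' z - FA S s b b' z / n| ≤ τ * (FA S s b b' z / n) →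
    (n : ℝ) ≤ τ * FA S s b b' z → X b b' z ≤ τ →
    κ * (FA S s b b' z / (n : ℝ) ^ 2) * ee S s b b' z ≤ Net k (S.A s) (S.H s) s b b' v z

variable {n : ℕ} {k x : ℝ} {S : CS n k x} {s : ℝ} {b b' : Fin n} {z : Pair n → ℝ}
  {v : Fin n → ℝ}

lemma ee_nonneg (b b' : Fin n) (z : Pair n → ℝ) : 0 ≤ ee S s b b' z :=
  AvP_nonneg (fun _ => Finset.sum_nonneg fun _ _ => sq_nonneg _) z

/-- the mean square fluctuation of `(v · σ)²` in a bulk -/
lemma vbar_le (hv : Bv S s b b' z v) :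
    AvP s (row b ∪ row b') (fun z' => ∑ σ, S.mu s z' σ *
      ((∑ i, v i * sp σ i) ^ 2 - lamq S s b b' z v) ^ 2) z ≤
      √(KA S s b b' z) + DlA S s b b' z := by
  have h := hv.E3
  have e : ∀ σ, v ⬝ᵥ ubq b b' σ = ∑ i, v i * sp σ i := by
    intro σ
    unfold dotProduct ubq
    refine Finset.sum_congr rfl fun i _ => ?_
    split_ifs with hi
    · rcases hi with hi | hi <;> rw [hi] <;> simp [hv.vb, hv.vb']
    · rfl
  simp only [e] at h
  exact h

/-- **General systems**: the model input is the third coefficient. -/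
theorem kapG_t3 {β c Γ ε : ℝ} (hβ : 0 < β) (hc : 0 < c) (hε : 0 < ε) (hε1 : ε ≤ 1 / 40) :
    ∃ τ κ : ℝ, 0 < τ ∧ τ ≤ ε ∧
    0 < κ ∧ ∀ {n : ℕ} {k x : ℝ} {S : CS n k x} {s L : ℝ}
      {X : Fin n → Fin n → (Pair n → ℝ) → ℝ}, (1 : ℝ) ≤ n → k ^ 2 * n = β ^ 2 → 1 / 2 ≤ s →
      s ≤ 1 → Fn k SkS (uu x s S.F) (S.mu s) Γ →
      (∀ (b b' : Fin n) (z : Pair n → ℝ) (v : Fin n → ℝ), b ≠ b' → Bv S s b b' z v →
        0 < FA S s b b' z → L ≤ FA S s b b' z → ThA S s b b' z ≤ (τ * FA S s b b' z) ^ 2 →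
        (n : ℝ) ≤ τ * FA S s b b' z → X b b' z ≤ τ → 0 < lamq S s b b' z v →
        lamq S s b b' z v ≤ n → FA S s b b' z ≤ 2 * lamq S s b b' z v ^ 2 →
        √(KA S s b b' z) + DlA S s b b' z ≤ ε * lamq S s b b' z v ^ 2 →
        c * ((√s * k) ^ 3 * lamq S s b b' z v ^ 2) ≤ -t3 v (fa (S.A s) s b b' z)) →
      KapG S s τ κ L X := by
  obtain ⟨τ, hτ0, hτ1, hmain⟩ := kap_bulk_S (ε := ε) (Γ := Γ) hβ hε hε1
  refine ⟨τ, c ^ 2 * β ^ 6 / 96 / 2, hτ0, hτ1, by positivity, ?_⟩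
  intro n k x S s L X hn hkn hs0 hs1 hFn hT b b' z v hb hv hF hL hΘ hA hnF hX
  have hs : 0 < s := by linarith
  have hn0 : (0 : ℝ) < n := by linarith
  obtain ⟨h1, h2, h3, -, -, -, h7, h8⟩ := hmain hn hkn hs hs1 hb hFn hv hF hΘ hA hnF
    (√(KA S s b b' z) + DlA S s b b' z) fun mu hmu => by
      have h3 := KA_nonneg S s b b' z
      have h4 := Real.sq_sqrt h3
      have h5 : 0 ≤ (mu - √(KA S s b b' z)) ^ 2 / (2 * mu) := by positivity
      have h6 : (mu - √(KA S s b b' z)) ^ 2 / (2 * mu) =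
          mu / 2 + KA S s b b' z / (2 * mu) - √(KA S s b b' z) := by
        rw [sub_sq, h4]
        field_simp
        ring
      linarith
  have hgf := gf_a (rowIn_S S hs) hb s z
  have h9 := kap_gf3 (β := β) (c := c) hβ hc hgf hv.v1 hn S.k0.le hkn hs0
    (hT b b' z v hb hv hF hL hΘ hnF hX h1 h2 h8 h3) h7
  rw [f0_ee] at h9
  refine le_trans ?_ h9
  have h10 : FA S s b b' z / (n : ℝ) ^ 2 ≤ 2 * (lamq S s b b' z v ^ 2 / (n : ℝ) ^ 2) := by
    rw [← mul_div_assoc]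
    gcongr
  have h11 := ee_nonneg (S := S) (s := s) b b' z
  calc c ^ 2 * β ^ 6 / 96 / 2 * (FA S s b b' z / (n : ℝ) ^ 2) * ee S s b b' z
      ≤ c ^ 2 * β ^ 6 / 96 / 2 * (2 * (lamq S s b b' z v ^ 2 / (n : ℝ) ^ 2)) *
        ee S s b b' z := by gcongr
    _ = _ := by ring

/-! ### the SK model -/

lemma lamq_sum (hb : v b = 0) (hb' : v b' = 0) (z : Pair n → ℝ) :
    lamq S s b b' z v =
      ∑ i, ∑ j, v i * v j * CB s (row b ∪ row b') (S.A s) z i j := by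
  unfold lamq dotProduct mulVec dotProduct
  refine Finset.sum_congr rfl fun i _ => ?_
  rw [Finset.mul_sum]
  refine Finset.sum_congr rfl fun j _ => ?_
  unfold CBq bq
  by_cases h : (i = b ∨ i = b') ∨ j = b ∨ j = b'
  · simp only [if_pos h]
    have h0 : v i = 0 ∨ v j = 0 := by
      rcases h with (h | h) | (h | h)
      · left; rw [h, hb]
      · left; rw [h, hb']
      · right; rw [h, hb]
      · right; rw [h, hb']
    rcases h0 with h0 | h0 <;> rw [h0] <;> ring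
  · simp only [if_neg h]
    ring

lemma DlA_eq (b b' : Fin n) (z : Pair n → ℝ) :
    AvP s (row b ∪ row b') (fun z' => ∑ i, ∑ j,
      (S.A s z' i j - CB s (row b ∪ row b') (S.A s) z i j) ^ 2) z = DlA S s b b' z := by
  unfold DlA AvP
  refine integral_congr_ae (Filter.Eventually.of_forall fun g => ?_)
  simp only
  unfold Dlt fr
  refine Finset.sum_congr rfl fun i _ => Finset.sum_congr rfl fun j _ => ?_
  rw [Matrix.sub_apply, CB_sw]

/-- **(K) for the SK model**, `β < 3/2`. -/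
theorem kapG_sk {β : ℝ} (hβ0 : 0 < β) (hβ : β < 3 / 2) : ∃ τ κ : ℝ, 0 < τ ∧ τ ≤ 1 / 40 ∧
    0 < κ ∧ ∀ {n : ℕ} {k x : ℝ} (hk : 0 < k) (hx : 0 < x) (hx1 : x ≤ 1) {s L : ℝ}, (1 : ℝ) ≤ n →
      k ^ 2 * n = β ^ 2 → 1 / 2 ≤ s → s ≤ 1 → x ≤ τ →
      KapG (skCS n hk hx hx1) s τ κ L fun _ _ _ => 0 := by
  obtain ⟨ε, κ, hε, hε1, hκ, hgf⟩ := kap_gf hβ0 hβ
  obtain ⟨τ, hτ0, hτ1, hmain⟩ := kap_bulk_S (Γ := 4) hβ0 hε hε1
  refine ⟨τ, κ / 2, hτ0, hτ1.trans hε1, by positivity, ?_⟩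
  intro n k x hk hx hx1 s L hn hkn hs0 hs1 hxτ b b' z v hb hv hF _ hΘ hA hnF _
  have hs : 0 < s := by linarith
  have hn0 : (0 : ℝ) < n := by linarith
  have hlam := lamq_sum (S := skCS n hk hx hx1) (s := s) hv.vb hv.vb' z
  have hVm := fun mu (hmu : 0 < mu) =>
    H722.Vm_le (k := k) (s := s) (b := b) (b' := b') hx.le hv.v1 hv.vb hmu z
  have hD := DlA_eq (S := skCS n hk hx hx1) (s := s) b b' z
  obtain ⟨h1, h2, h3, h4, h5, h6, h7, h8⟩ := hmain hn hkn hs hs1 hb (fn_skCS hk hx hx1 s) hv hF hΘ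
    hA hnF (H722.Vm k x s b b' v (lamq (skCS n hk hx hx1) s b b' z v) z) fun mu hmu => by
      have h9 := hVm mu hmu
      rw [hlam, ← hD]
      exact h9
  have hgfa := gf_a (rowIn_S (skCS n hk hx hx1) hs) hb s z
  have hA1 : H722.A1 k x s b b' v z =
      H329.mv v (fH k ((skCS n hk hx hx1).H s) s b b' z) := t1_eq hgfa v
  have h9 := hgf hgfa hv.v1 n k s x (lamq (skCS n hk hx hx1) s b b' z v)
    (H722.Vm k x s b b' v (lamq (skCS n hk hx hx1) s b b' z v) z) hn hk.le hkn hs0 hs1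
    (hxτ.trans hτ1) h1 h2 h3 (mv_nonneg hs z v) (fun c hc hc1 hVc hxc hm =>
      H722.kappaS hk.le hx.le hs hs1 hb hv.v1 hv.vb hv.vb' h1.le hc hc1 z hVc hxc
        (by rw [hA1]; exact hm)) h4 h5 h6 h7
  rw [f0_ee] at h9
  refine le_trans ?_ h9
  have h10 : FA (skCS n hk hx hx1) s b b' z / (n : ℝ) ^ 2 ≤
      2 * (lamq (skCS n hk hx hx1) s b b' z v ^ 2 / (n : ℝ) ^ 2) := by
    rw [← mul_div_assoc]
    gcongr
  have h11 := ee_nonneg (S := skCS n hk hx hx1) (s := s) b b' z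
  calc κ / 2 * (FA (skCS n hk hx hx1) s b b' z / (n : ℝ) ^ 2) * ee (skCS n hk hx hx1) s b b' z
      ≤ κ / 2 * (2 * (lamq (skCS n hk hx hx1) s b b' z v ^ 2 / (n : ℝ) ^ 2)) *
        ee (skCS n hk hx hx1) s b b' z := by gcongr
    _ = _ := by ring

end Vale.Agent.P146.X9.H191
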