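import Vale.Agent.P146.X9.Base
import Vale.Agent.P146.X9.H325_Fo
import Vale.Agent.P146.H706.LawK
import Vale.Agent.P146.H737.R1f

/-!
Plan R1: consequences of the package `Fo`. The laws `E_θ` and its row average are comparable up
to a factor `2` and an error `n⁻²⁰⁰` (`Law2`).
-/

open MeasureTheory ProbabilityTheory

namespace Vale.Agent.P146.X9.R1C

open Vale.Agent.P146.R1C

open Vale.Agent.P157.Lv Vale.Agent.P146.H425 Vale.Agent.P146.H325 Vale.Agent.P146.H332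
  Vale.Agent.P146.H712 Vale.Agent.P146.H816 Vale.Agent.P146.R1 Matrix
open Vale.Agent.P146.X9.H425 Vale.Agent.P146.X9.H325 Vale.Agent.P146.X9.H332 Vale.Agent.P146.X9.H712 Vale.Agent.P146.X9.H816 Vale.Agent.P146.X9.R1

set_option linter.unusedSectionVars false

lemma kk_sq {n : ℕ} (hn : 0 < n) (β : ℝ) : kk n β ^ 2 * n = β ^ 2 := by
  unfold kk
  rw [div_pow, Real.sq_sqrt (Nat.cast_nonneg n)]
  have : (n : ℝ) ≠ 0 := by positivity
  field_simp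

/-- **(N1)** the constants of the law change -/
theorem law_const {β : ℝ} (hβ : 0 < β) : ∃ n₀ : ℕ, 2 ≤ n₀ ∧ ∀ n : ℕ, n₀ ≤ n → ∀ x : ℝ, 0 < x →
    x * Real.log n ^ 2 ≤ 1 → 288 * x ^ 2 * kk n β ^ 2 * n ≤ 1 ∧
      ∃ p : ℕ, ((p : ℝ) + 1) ^ 2 * (18 * x ^ 2 * kk n β ^ 2 * n) ≤ 1 ∧
        3 / 2 ^ p ≤ ((n : ℝ) ^ 200)⁻¹ := by
  obtain ⟨n₀, h2, hn₀⟩ := Vale.Agent.P146.X9.law_const_log hβ
  refine ⟨n₀, h2, fun n hn x hx hx7 => ?_⟩
  have hnn : 0 < n := by omega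
  exact hn₀ n hn (kk n β) (kk_sq hnn β) x hx hx7

/-- The comparison of the law and its average over two rows. -/
structure Law2 (n : ℕ) (ε : ℝ) (q : Par) (F : (Pair n → ℝ) → ℝ) : Prop where
  up : ∀ (b b' : Fin n) (f : (K4 (Pair n) → ℝ) → ℝ) (K : ℝ), EG f → (∀ w, 0 ≤ f w) →
    (∀ w, f w ≤ K) → Ew q F f ≤ 2 * Ew q F (Av (lf (row b ∪ row b')) f) +
      ε * K * Ew q F (fun _ => 1)
  low : ∀ (b b' : Fin n) (f : (K4 (Pair n) → ℝ) → ℝ) (K : ℝ), EG f → (∀ w, 0 ≤ f w) →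
    (∀ w, f w ≤ K) → Ew q F (Av (lf (row b ∪ row b')) f) ≤ 2 * Ew q F f +
      ε * K * Ew q F (fun _ => 1)

/-- **(N1)** the comparison with the error `n⁻²⁰⁰` -/
theorem law2_of {β : ℝ} (hβ : 0 < β) : ∃ n₀ : ℕ, 2 ≤ n₀ ∧ ∀ n : ℕ, n₀ ≤ n → ∀ (q : Par)
    (F : (Pair n → ℝ) → ℝ) (D : Pair n → (Pair n → ℝ) → ℝ) (B L : ℝ), C11 F D B L → q.OkS →
    q.x * Real.log n ^ 2 ≤ 1 →
    (∀ b b' z, ∑ e ∈ row b ∪ row b', D e z ^ 2 ≤ 2 * β ^ 2) → Law2 n ((n : ℝ) ^ 200)⁻¹ q F := by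
  obtain ⟨n₀, h2, hn₀⟩ := law_const hβ
  refine ⟨n₀, h2, fun n hn q F D B L hc hq hx7 hrow => ?_⟩
  obtain ⟨-, p, hp, hε⟩ := hn₀ n hn q.x hq.x0 hx7
  have hnn : 0 < n := by omega
  have hk : kk n β ^ 2 * n = β ^ 2 := kk_sq hnn β
  have e0 : 18 * q.x ^ 2 * kk n β ^ 2 * n = 18 * q.x ^ 2 * β ^ 2 := by rw [← hk]; ring
  rw [e0] at hp
  have e : √(18 * q.x ^ 2 * β ^ 2) ^ 2 = 18 * q.x ^ 2 * β ^ 2 := Real.sq_sqrt (by positivity)
  have hE : 0 ≤ Ew q F fun _ => 1 := (Ew1_pos hc hq.x0).le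
  have hK : ∀ K : ℝ, 0 ≤ K → 3 * K / 2 ^ p * Ew q F (fun _ => 1) ≤
      ((n : ℝ) ^ 200)⁻¹ * K * Ew q F (fun _ => 1) := by
    intro K hK
    refine mul_le_mul_of_nonneg_right ?_ hE
    have := mul_le_mul_of_nonneg_right hε hK
    calc 3 * K / 2 ^ p = 3 / 2 ^ p * K := by ring
      _ ≤ _ := this
  constructor
  · intro b b' f K hf h0 hfK
    have hK0 : 0 ≤ K := (h0 0).trans (hfK 0)
    have := law_up_s (l := √(18 * q.x ^ 2 * β ^ 2)) hc hq (hrow b b') (Real.sqrt_nonneg _)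
      (by rw [e]; linarith) p (by rw [e]; exact hp) hf h0 hfK
    linarith [hK K hK0]
  · intro b b' f K hf h0 hfK
    have hK0 : 0 ≤ K := (h0 0).trans (hfK 0)
    have := law_low_s (l := √(18 * q.x ^ 2 * β ^ 2)) hc hq (hrow b b') (Real.sqrt_nonneg _)
      (by rw [e]; linarith) p (by rw [e]; exact hp) hf h0 hfK
    linarith [hK K hK0]

section tail

variable {n : ℕ} {ε : ℝ} {q : Par} {F : (Pair n → ℝ) → ℝ} {D : Pair n → (Pair n → ℝ) → ℝ}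
  {B L : ℝ}

lemma Law2.nup (h : Law2 n ε q F) (hc : C11 F D B L) (hx : 0 < q.x) (b b' : Fin n)
    {f : (K4 (Pair n) → ℝ) → ℝ} {K : ℝ} (hf : EG f) (h0 : ∀ w, 0 ≤ f w) (hK : ∀ w, f w ≤ K) :
    En q F f ≤ 2 * En q F (Av (lf (row b ∪ row b')) f) + ε * K := by
  have h1 := h.up b b' f K hf h0 hK
  have hE := Ew1_pos (F := F) hc hx (q := q)
  unfold En
  rw [div_le_iff₀ hE]
  have e : (2 * (Ew q F (Av (lf (row b ∪ row b')) f) / Ew q F fun _ => 1) + ε * K) *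
      (Ew q F fun _ => 1) = 2 * Ew q F (Av (lf (row b ∪ row b')) f) +
        ε * K * Ew q F fun _ => 1 := by
    field_simp
  rw [e]
  exact h1

lemma Law2.nlow (h : Law2 n ε q F) (hc : C11 F D B L) (hx : 0 < q.x) (b b' : Fin n)
    {f : (K4 (Pair n) → ℝ) → ℝ} {K : ℝ} (hf : EG f) (h0 : ∀ w, 0 ≤ f w) (hK : ∀ w, f w ≤ K) :
    En q F (Av (lf (row b ∪ row b')) f) ≤ 2 * En q F f + ε * K := by
  have h1 := h.low b b' f K hf h0 hK
  have hE := Ew1_pos (F := F) hc hx (q := q)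
  unfold En
  rw [div_le_iff₀ hE]
  have e : (2 * (Ew q F f / Ew q F fun _ => 1) + ε * K) * (Ew q F fun _ => 1) =
      2 * Ew q F f + ε * K * Ew q F fun _ => 1 := by
    field_simp
  rw [e]
  exact h1

/-- **(N2)** a bounded function supported on a rare event -/
lemma En_rare (hc : C11 F D B L) (hx : 0 < q.x) {f g : (K4 (Pair n) → ℝ) → ℝ} (hf : EG f)
    (hg : EG g) {K M δ : ℝ} (hK0 : 0 ≤ K) (hK : ∀ w, M < g w → f w ≤ K)
    (hs : ∀ w, ¬ M < g w → f w ≤ 0)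
    (hδ : En q F (fun w => if M < g w then (1 : ℝ) else 0) ≤ δ) : En q F f ≤ K * δ := by
  have hi : EG fun w => if M < g w then (1 : ℝ) else 0 := by
    refine EG.of_bdd (C := 1) ?_ fun w => ?_
    · exact Measurable.ite (measurableSet_lt measurable_const hg.meas) measurable_const
        measurable_const
    · split_ifs <;> simp
  refine (En_mono hc hx hf (hi.const_mul K) fun w => ?_).trans ?_
  · split_ifs with h1
    · rw [mul_one]; exact hK w h1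
    · rw [mul_zero]; exact hs w h1
  · rw [En_const_mul]
    exact mul_le_mul_of_nonneg_left hδ hK0

end tail

end Vale.Agent.P146.X9.R1C
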