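import Vale.Agent.P146.X9.Base
import Vale.Agent.P146.H546.FwS
import Vale.Agent.P146.X9.H816_SkNS
import Vale.Agent.P146.X9.H522_PoCS
import Vale.Agent.P146.X9.H640_LamP
import Vale.Agent.P146.X9.H325_KapF

/-!
Plan R1, row (KAP), for a position system: from the fixed bulk inequality, the bound of the
nonlinear part of the row field and the bound of the errors to the number `N / n²`.
-/

open MeasureTheory ProbabilityTheory

namespace Vale.Agent.P146.X9.R1S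

open Vale.Agent.P146.R1S

open Vale.Agent.P157.Lv Vale.Agent.P146.H425 Vale.Agent.P146.H325
  Vale.Agent.P146.H712 Vale.Agent.P146.R1 Vale.Agent.P146.R1C Matrix
open Vale.Agent.P146.X9.H425 Vale.Agent.P146.X9.H325 Vale.Agent.P146.X9.H712 Vale.Agent.P146.X9.R1 Vale.Agent.P146.X9.R1C
open Vale.Agent.P146.H332 hiding Nf Gf
open Vale.Agent.P146.X9.H332

set_option linter.unusedSectionVars false

section gen

variable {n : ℕ} {k x : ℝ} {S : CS n k x} {q : Par}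

/-- `fr (N - N')`, `N = E a d'`, against the sizes of the two positions -/
lemma nd_anti (hq : q.OkS) (hs1 : 0 < q.s1) (b b' : Fin n) (w : K4 (Pair n) → ℝ) :
    fr (R1S.Nd S q b b' w - (R1S.Nd S q b b' w)ᵀ) ≤ 4 * k ^ 4 *
      (Av (lf (row b ∪ row b')) (fun w => fr (S.A q.s1 (P2 q w))) w *
        Av (lf (row b ∪ row b')) (fun w => fr (S.A q.s2 (P3 q w))) w) := by
  have hs2 : 0 < q.s2 := hs1.trans_le hq.h12
  have e1 : q.s1 ≤ 1 := hq.h12.trans hq.h2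
  have h1 := anti_le (R1S.Nd S q b b' w)
  have h2 : fr (R1S.Nd S q b b' w) ≤
      Av (lf (row b ∪ row b')) (fun w => ∑ i, Ca S q b b' w i ^ 2) w *
        Av (lf (row b ∪ row b')) (fun w => ∑ i, Cd S q b b' w i ^ 2) w :=
    mixed_le (u := fun w => Ca S q b b' w) (v := fun w => Cd S q b b' w)
      (fun i => eg_Ca S q b b' i) (fun i => eg_Cd S q b b' i) _ w
  have ha : Av (lf (row b ∪ row b')) (fun w => ∑ i, Ca S q b b' w i ^ 2) w =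
      ee S q.s1 b b' (P2 q w) :=
    Av_lf_P2_s hq (f := fun z => ∑ i, cl0 S q.s1 b b' z i ^ 2)
      (EG.sum _ fun i _ => (eg_cl0 S q.s1 b b' i).pow 2) _ w
  have hd : Av (lf (row b ∪ row b')) (fun w => ∑ i, Cd S q b b' w i ^ 2) w =
      ee S q.s2 b b' (P3 q w) :=
    Av_lf_P3_s hq (f := fun z => ∑ i, cl0 S q.s2 b b' z i ^ 2)
      (EG.sum _ fun i _ => (eg_cl0 S q.s2 b b' i).pow 2) _ w
  have eA : ∀ s, EG fun z => fr (S.A s z) := fun s => by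
    unfold fr
    exact EG.sum _ fun i _ => EG.sum _ fun j _ => (S.eg_A s i j).pow 2
  have fa : Av (lf (row b ∪ row b')) (fun w => fr (S.A q.s1 (P2 q w))) w =
      AvP q.s1 (row b ∪ row b') (fun z => fr (S.A q.s1 z)) (P2 q w) :=
    Av_lf_P2_s hq (eA q.s1) _ w
  have fd : Av (lf (row b ∪ row b')) (fun w => fr (S.A q.s2 (P3 q w))) w =
      AvP q.s2 (row b ∪ row b') (fun z => fr (S.A q.s2 z)) (P3 q w) :=
    Av_lf_P3_s hq (eA q.s2) _ w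
  have g1 := ee_le (S := S) hs1 b b' (P2 q w)
  have g2 := ee_le (S := S) hs2 b b' (P3 q w)
  rw [ha, hd] at h2
  rw [fa, fd]
  set X1 := AvP q.s1 (row b ∪ row b') (fun z => fr (S.A q.s1 z)) (P2 q w)
  set X2 := AvP q.s2 (row b ∪ row b') (fun z => fr (S.A q.s2 z)) (P3 q w)
  have x1 : 0 ≤ X1 := AvP_nonneg (fun _ => H332.fr_nonneg _) _
  have x2 : 0 ≤ X2 := AvP_nonneg (fun _ => H332.fr_nonneg _) _
  have hk : 0 ≤ k ^ 2 := sq_nonneg k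
  have y1 : ee S q.s1 b b' (P2 q w) ≤ k ^ 2 * X1 := by
    refine g1.trans (mul_le_mul_of_nonneg_right ?_ x1)
    exact mul_le_of_le_one_left hk e1
  have y2 : ee S q.s2 b b' (P3 q w) ≤ k ^ 2 * X2 := by
    refine g2.trans (mul_le_mul_of_nonneg_right ?_ x2)
    exact mul_le_of_le_one_left hk hq.h2
  have y3 : ee S q.s1 b b' (P2 q w) * ee S q.s2 b b' (P3 q w) ≤ (k ^ 2 * X1) * (k ^ 2 * X2) :=
    mul_le_mul y1 y2 (ee_nonneg b b' _) (by positivity)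
  calc fr (R1S.Nd S q b b' w - (R1S.Nd S q b b' w)ᵀ) ≤ 4 * ((k ^ 2 * X1) * (k ^ 2 * X2)) := by
        linarith
    _ = _ := by ring

/-- **One bulk, the fixed bulk inequality for all `c` put together.** -/
theorem kap_bulk (hq : q.OkS) (hs1 : 0 < q.s1) {b b' : Fin n} (hb : b ≠ b')
    (w : K4 (Pair n) → ℝ) {v : Fin n → ℝ} (hv : ∑ i, v i ^ 2 = 1)
    {α0 α1 δ0 δ1 ε0 ε1 κ' bad Er : ℝ}
    (hα0 : 0 ≤ α0) (hα1 : 0 ≤ α1) (hδ0 : 0 ≤ δ0) (hδ1 : 0 ≤ δ1) (hε0 : 0 ≤ ε0) (hε1 : 0 ≤ ε1)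
    (ha0 : ee S q.s1 b b' (P2 q w) ≤ α0 ^ 2)
    (ha1 : Na1 k (S.A q.s1) (S.H q.s1) q.s1 b b' (P2 q w) ≤ α1 ^ 2)
    (hd0 : ee S q.s2 b b' (P3 q w) ≤ δ0 ^ 2)
    (hd1 : Na1 k (S.A q.s2) (S.H q.s2) q.s2 b b' (P3 q w) ≤ δ1 ^ 2)
    (he0 : Ne0 k (S.H q.s1) q.s1 b b' v (P2 q w) ≤ ε0 ^ 2)
    (he1 : Ne1 k (S.H q.s1) q.s1 b b' v (P2 q w) ≤ ε1 ^ 2)
    (hκ : 0 ≤ κ') (hκ1 : κ' ≤ 1) (hbad : 0 ≤ bad)
    (hN0 : 0 ≤ Net k (S.A q.s1) (S.H q.s1) q.s1 b b' v (P2 q w))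
    (hK : bad < 1 → κ' * ee S q.s1 b b' (P2 q w) ≤
      Net k (S.A q.s1) (S.H q.s1) q.s1 b b' v (P2 q w))
    (hEr : κ' * ((ε0 ^ 2 + ε1 ^ 2) * δ0 ^ 2) +
      6 * ((ε0 * δ1 + ε1 * δ0) * (α0 * δ1 + α1 * δ0)) ≤ Er) :
    κ' / 8 * (1 - bad) * fr (R1S.Nd S q b b' w - (R1S.Nd S q b b' w)ᵀ) ≤ R1S.Gb S q b b' w + Er := by
  refine kap_point (P := ee S q.s1 b b' (P2 q w)) (E := Net k (S.A q.s1) (S.H q.s1) q.s1 b b' v
    (P2 q w)) (α := ee S q.s1 b b' (P2 q w)) (X1 := (ε0 ^ 2 + ε1 ^ 2) * δ0 ^ 2)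
    (X2 := 6 * ((ε0 * δ1 + ε1 * δ0) * (α0 * δ1 + α1 * δ0))) (H332.fr_nonneg _) hN0 le_rfl hκ hκ1
    hbad (by positivity) ?_ hK hEr
  intro c hc _ hca
  exact fb_cs_s S hq hs1 hb w hv hc hα0 hα1 hδ0 hδ1 hε0 hε1 hca ha0 ha1 hd0 hd1 he0 he1

end gen

section num

variable {n : ℕ} {β A δ T ρ : ℝ} {q : Par} {S : CS n (kk n β) q.x}

/-- the constant of the other rows -/
noncomputable def cO (β : ℝ) : ℝ := 202560 * (β ^ 6 + β ^ 3) + 365 * β ^ 4 + 1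

lemma eC_le {m : ℕ} (h : NumS S A δ T ρ ((n : ℝ) ^ 200)⁻¹) {c : ℝ} (hc : 0 ≤ c)
    (hc1 : c ≤ 202560) :
    c * eC n β A T ρ q ≤ 202560 * (β ^ 6 + β ^ 3) * A ^ (m + 3) *
      (q.x * √(NN n β ρ / (n : ℝ) ^ 2) + √(1 / (n * T))) * NN n β ρ ^ 2 := by
  have hq := h.fo.ok
  have hA := h.fo.A1
  have hn := h.fo.n0
  have hβ := h.fo.β0
  have hN := h.fo.N0
  have hx := hq.x0
  have hT := h.fo.Tp
  have hn0 : (0 : ℝ) < n := by linarith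
  have e1 : √(NN n β ρ) / n = √(NN n β ρ / (n : ℝ) ^ 2) := by
    rw [Real.sqrt_div hN.le, Real.sqrt_sq hn0.le]
  have e2 : NN n β ρ ^ 2 / √(n * T) = √(1 / (n * T)) * NN n β ρ ^ 2 := by
    rw [Real.sqrt_div zero_le_one, Real.sqrt_one]
    ring
  have a3 : A ^ 3 ≤ A ^ (m + 3) := pow_le_pow_right₀ hA (by omega)
  have a2 : A ^ 2 ≤ A ^ (m + 3) := pow_le_pow_right₀ hA (by omega)
  set y := q.x * √(NN n β ρ / (n : ℝ) ^ 2) with hy
  set v := √(1 / (n * T)) with hv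
  have hy0 : 0 ≤ y := by positivity
  have hv0 : 0 ≤ v := Real.sqrt_nonneg _
  set P := A ^ (m + 3) with hP
  have hP0 : 0 ≤ P := by positivity
  set N := NN n β ρ with hNd
  have h1 : eC n β A T ρ q ≤ (β ^ 6 + β ^ 3) * P * (y + v) * N ^ 2 := by
    unfold eC
    rw [← hNd, e1, e2]
    have b1 : β ^ 6 * A ^ 3 * (q.x * √(N / (n : ℝ) ^ 2) * N ^ 2) ≤
        β ^ 6 * P * (y * N ^ 2) := by
      rw [hy]
      gcongr
    have b2 : β ^ 3 * A ^ 2 * (v * N ^ 2) ≤ β ^ 3 * P * (v * N ^ 2) := by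
      gcongr
    have b3 : 0 ≤ β ^ 6 * P * (v * N ^ 2) := by positivity
    have b4 : 0 ≤ β ^ 3 * P * (y * N ^ 2) := by positivity
    linarith
  have h0 : 0 ≤ (β ^ 6 + β ^ 3) * P * (y + v) * N ^ 2 := by positivity
  calc c * eC n β A T ρ q ≤ c * ((β ^ 6 + β ^ 3) * P * (y + v) * N ^ 2) :=
        mul_le_mul_of_nonneg_left h1 hc
    _ ≤ 202560 * ((β ^ 6 + β ^ 3) * P * (y + v) * N ^ 2) :=
        mul_le_mul_of_nonneg_right hc1 h0
    _ = _ := by ring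

/-- **(KAP) for a position system, from the bulk inequality and the two error sums.** -/
theorem kap_S {C κ : ℝ} {m : ℕ} (hC : 0 ≤ C) (hκ : 0 < κ) (hκ1 : κ ≤ 1)
    (h : NumS S A δ T ρ ((n : ℝ) ^ 200)⁻¹)
    {bad Er : Fin n → Fin n → (K4 (Pair n) → ℝ) → ℝ}
    (eb : ∀ b b', EG (bad b b')) (eE : ∀ b b', EG (Er b b'))
    (hb0 : ∀ b b' w, 0 ≤ bad b b' w) (hb1 : ∀ b b' w, bad b b' w ≤ 1)
    (hpt : ∀ b b', b' ≠ b → ∀ w, κ / (8 * A) * (NN n β ρ / (n : ℝ) ^ 2) * (1 - bad b b' w) *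
      fr (R1S.Nd S q b b' w - (R1S.Nd S q b b' w)ᵀ) ≤ R1S.Gb S q b b' w + Er b b' w)
    {ϑ : ℝ} (hϑ : 0 ≤ ϑ)
    (hK : NN n β ρ ^ 2 / (4 * A ^ 3) ≤
      En q S.F (fun w => fr (S.A q.s1 (P2 q w) * S.A q.s2 (P3 q w) -
        S.A q.s2 (P3 q w) * S.A q.s1 (P2 q w))))
    (hE : ∑ b, ∑ b' ∈ Finset.univ.erase b, En q S.F (Er b b') ≤
      C * A ^ m * (NN n β ρ / (n : ℝ) ^ 2 * ϑ) * NN n β ρ ^ 2)
    (hbad : ∑ b, ∑ b' ∈ Finset.univ.erase b, En q S.F (bad b b') ≤ C * A ^ m *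
      (ϑ + q.x * √(NN n β ρ / (n : ℝ) ^ 2) + √(1 / (n * T)) + 1 / n) * (n : ℝ) ^ 2) :
    NN n β ρ / (n : ℝ) ^ 2 ≤ 192 * ((C + cO β) * (1 + 28 * β ^ 4)) / κ * A ^ (m + 9) *
      (√(1 / (n * T)) + q.x * √(NN n β ρ / (n : ℝ) ^ 2) + ϑ * (NN n β ρ / (n : ℝ) ^ 2) +
        1 / n) := by
  have hq := h.fo.ok
  have hs1 := h.s1p
  have hA := h.fo.A1
  have hn := h.fo.n0
  have hβ := h.fo.β0
  have hN := h.fo.N0
  have hx := hq.x0
  have hT := h.fo.Tp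
  have hcO : 1 ≤ cO β := by
    unfold cO
    have : 0 ≤ 202560 * (β ^ 6 + β ^ 3) + 365 * β ^ 4 := by positivity
    linarith
  have eA1 : EG fun w : K4 (Pair n) → ℝ => fr (S.A q.s1 (P2 q w)) := by
    unfold fr
    exact EG.sum _ fun i _ => EG.sum _ fun j _ => (eg_P2 (S.eg_A q.s1 i j)).pow 2
  have eA2 : EG fun w : K4 (Pair n) → ℝ => fr (S.A q.s2 (P3 q w)) := by
    unfold fr
    exact EG.sum _ fun i _ => EG.sum _ fun j _ => (eg_P3 (S.eg_A q.s2 i j)).pow 2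
  have hN2 : 0 ≤ NN n β ρ ^ 2 := by positivity
  have hup : ∀ z : ℝ, 0 ≤ z → C * A ^ m * z ≤ (C + cO β) * A ^ (m + 3) * z := by
    intro z hz
    have c1 : A ^ m ≤ A ^ (m + 3) := pow_le_pow_right₀ hA (by omega)
    have c2 : C ≤ C + cO β := by linarith
    gcongr
  have hue : ∀ {c : ℝ}, 0 ≤ c → c ≤ 202560 → c * eC n β A T ρ q ≤ (C + cO β) * A ^ (m + 3) *
      (q.x * √(NN n β ρ / (n : ℝ) ^ 2) + √(1 / (n * T))) * NN n β ρ ^ 2 := by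
    intro c hc hc1
    refine (eC_le (m := m) h hc hc1).trans ?_
    have c2 : 202560 * (β ^ 6 + β ^ 3) ≤ C + cO β := by
      unfold cO
      have : 0 ≤ 365 * β ^ 4 := by positivity
      linarith
    gcongr
  have key := kap_fin (C := C + cO β) (m := m + 3) (κ := κ) (by linarith) hκ hκ1 h.fo S.c11
    (G := fun b b' w => R1S.Gb S q b b' w)
    (Y := fun b b' w => fr (R1S.Nd S q b b' w - (R1S.Nd S q b b' w)ᵀ)) (bad := bad) (Er := Er)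
    (fun b b' => R1S.eg_Gb b b') (fun b b' => R1S.eg_Yd b b') eb eE eA1 eA2 (fun w => S.fr_A_le _ _) (fun w => S.fr_A_le _ _)
    hb0 hb1 hpt (fun b b' _ w => R1S.nd_anti hq hs1 b b' w)
    (fun b b' f hf h0 h1 => by
      have := h.law.nlow S.c11 hx b b' hf h0 h1
      linarith) hϑ h.n1 h.n2 hK ?_ ?_ ?_ ?_ ?_
  · exact key
  · refine h.dg.trans ?_
    have a2 : A ^ 2 ≤ A ^ (m + 3) := pow_le_pow_right₀ hA (by omega)
    have c2 : 365 * β ^ 4 ≤ C + cO β := by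
      unfold cO
      have : 0 ≤ 202560 * (β ^ 6 + β ^ 3) := by positivity
      linarith
    calc 365 * (β ^ 4 * A ^ 2 * (NN n β ρ ^ 2 / n)) =
          365 * β ^ 4 * A ^ 2 * (1 / n) * NN n β ρ ^ 2 := by ring
      _ ≤ _ := by gcongr
  · exact hue (by norm_num) (by norm_num)
  · exact hue (by norm_num) le_rfl
  · refine hE.trans ?_
    exact mul_le_mul_of_nonneg_right (hup _ (by positivity)) hN2
  · refine hbad.trans ?_
    exact mul_le_mul_of_nonneg_right (hup _ (by positivity)) (by positivity)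

end num

end Vale.Agent.P146.X9.R1S
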