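import Vale.Agent.P146.X9.Base
import Vale.Agent.P146.X9.H329_Bk1
import Vale.Agent.P146.H640.Ee

/-!
P146, plan R1: the facts of one bulk at one time, in the letters of the fixed bulk inequality (left
hand sides) and of the bulk transfer (right hand sides).
-/

open Matrix MeasureTheory ProbabilityTheory

set_option linter.unusedSectionVars false

namespace Vale.Agent.P146.X9.H329

open Vale.Agent.P146.H329

open Vale.Agent.P157.Lv Vale.Agent.P146.H425 Vale.Agent.P146.H325 Vale.Agent.P146.H712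
  Vale.Agent.P146.R1 Vale.Agent.P146.R1C Vale.Agent.P146.Cum Vale.Agent.P146.H332
  Vale.Agent.P146.H522 Vale.Agent.P146.H633 Vale.Agent.P146.R1S
open Vale.Agent.P146.X9.H425 Vale.Agent.P146.X9.H325 Vale.Agent.P146.X9.H712 Vale.Agent.P146.X9.R1 Vale.Agent.P146.X9.R1C Vale.Agent.P146.X9.H332 Vale.Agent.P146.X9.H522 Vale.Agent.P146.X9.H633 Vale.Agent.P146.X9.R1S

variable {n : ℕ} {k x s Γ η : ℝ} {b b' : Fin n} {S : CS n k x} {z : Pair n → ℝ} {v : Fin n → ℝ}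

/-- `ε0²` -/
theorem bk_e0 (h : Bv S s b b' z v) (hs : 0 < s) (hs1 : s ≤ 1) :
    Ne0 k (S.H s) s b b' v z ≤ k ^ 2 * min (9 * √(ThA S s b b' z)) (FA S s b b' z) := by
  have r := rowIn_S S hs
  have e1 : ∀ i j, mh k (S.H s) s b b' z i j = bq b b' (MM S s b b' z) i j := by
    intro i j
    rw [mh_eq r.egH]
    rfl
  have e2 : ∑ p, ∑ l, v p * bq b b' (MM S s b b' z) p l * v l =
      v ⬝ᵥ (bq b b' (MM S s b b' z) *ᵥ v) := by
    unfold dotProduct mulVec dotProduct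
    refine Finset.sum_congr rfl fun i _ => ?_
    rw [Finset.mul_sum]
    exact Finset.sum_congr rfl fun j _ => by ring
  have e3 : Ne0 k (S.H s) s b b' v z = s * fr (bq b b' (MM S s b b' z) -
      (v ⬝ᵥ (bq b b' (MM S s b b' z) *ᵥ v)) • vecMulVec v v) := by
    rw [Ne0_eq r.egH hs.le]
    simp only [e1, e2]
    congr 1
  rw [e3]
  have h1 := h.E0 hs
  have h2 : 0 ≤ fr (bq b b' (MM S s b b' z) -
      (v ⬝ᵥ (bq b b' (MM S s b b' z) *ᵥ v)) • vecMulVec v v) :=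
    Finset.sum_nonneg fun _ _ => Finset.sum_nonneg fun _ _ => sq_nonneg _
  nlinarith

/-- `α1²`, `δ1²` -/
theorem bk_a1 (hFn : Fn k SkS (uu x s S.F) (S.mu s) Γ) (hs : 0 < s) (hs1 : s ≤ 1)
    (hb : b ≠ b') (z : Pair n → ℝ) : Na1 k (S.A s) (S.H s) s b b' z ≤
      36 * Γ ^ 6 * k ^ 6 * (2 * QA S s b b' z + 2 * KA S s b b' z) :=
  na1_le S hFn hs hs1 hb z

/-- `ε1²` -/
theorem bk_e1 (h : Bv S s b b' z v) (hFn : Fn k SkS (uu x s S.F) (S.mu s) Γ) (hs : 0 < s)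
    (hs1 : s ≤ 1) (hη : 0 < η) : Ne1 k (S.H s) s b b' v z ≤
      36 * Γ ^ 6 * k ^ 6 * ((η⁻¹) ^ 3 * (36 * ThA S s b b' z) +
        3 * η * (2 * QA S s b b' z + 2 * KA S s b b' z)) := by
  refine (ne1_le S hFn hs hs1 hη h.v1 h.vb h.vb' z).trans ?_
  have h1 := h.E1t
  refine mul_le_mul_of_nonneg_left (add_le_add ?_ le_rfl) (by positivity)
  exact mul_le_mul_of_nonneg_left h1 (by positivity)

/-- `α0²`, `δ0²` -/
theorem bk_a0 (S : CS n k x) (hs : 0 < s) (hs1 : s ≤ 1) (b b' : Fin n) (z : Pair n → ℝ) :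
    ee S s b b' z ≤ k ^ 2 * FA S s b b' z := by
  have h1 : ee S s b b' z ≤ s * k ^ 2 * FA S s b b' z :=
    ee_gen hs.le (A := fun z => S.A s z) (DA := fun e z => S.DA s e z) (fun i j => S.eg_A s i j)
      (fun e i j => S.pd_A s e i j) (fun e i j => S.eg_DA s e i j)
      (fun hp z => S.A_fl_row s hp z) (fun b z => S.row_grad hs b z) b b' z
  have h2 : 0 ≤ k ^ 2 * FA S s b b' z := mul_nonneg (sq_nonneg k) (FA_nonneg S s b b' z)
  nlinarith

end Vale.Agent.P146.X9.H329
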