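import Vale.Agent.P146.X9.Base
import Vale.Agent.P146.X9.H522_PoFo
import Vale.Agent.P146.H713.SkC2

/-!
Macroscopic rotation, SK model.
-/

open MeasureTheory ProbabilityTheory Matrix

namespace Vale.Agent.P146.X9.H522

open Vale.Agent.P146.H522

open Vale.Agent.P157.Lv Vale.Agent.P146.H425 Vale.Agent.P146.H332
open Vale.Agent.P146.X9.H425 Vale.Agent.P146.X9.H332
open Vale.Agent.P146.H325 hiding fr_nonneg C2
open Vale.Agent.P146.X9.H325
open Vale.Agent.P146.R1C (Par P0 P1 P2 P3 En DC T4 kov_pos swap_pos eg_DC)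
open Vale.Agent.P146.X9.R1C (Fo kk rt kk_NN)

set_option linter.unusedSectionVars false
set_option linter.unusedDecidableInType false

variable {n : ℕ} {k x : ℝ}

lemma DC_eq (t : ℝ) (z : Pair n → ℝ) (e : Pair n) (i j : Fin n) : DC k x t e z i j =
    k * (RR k SkS x (fun _ => √(1 - t)) (av k SkS fun σ => pr i j σ * SkS e σ) z -
      (1 - x) * RR k SkS x (fun _ => √(1 - t))
        (fun u => av k SkS (pr i j) u * av k SkS (SkS e) u) z -
      x * (RR k SkS x (fun _ => √(1 - t)) (av k SkS (pr i j)) z *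
        RR k SkS x (fun _ => √(1 - t)) (av k SkS (SkS e)) z)) := by
  have h1 : DC k x t e z i j = RR k SkS x (fun _ => √(1 - t)) (av' k SkS x (pr i j) e) z -
      RR k SkS x (fun _ => √(1 - t)) (av k SkS (pr i j)) z *
        RR k SkS x (fun _ => √(1 - t)) (one' k SkS x e) z := rfl
  have h2 : av' k (SkS (n := n)) x (pr i j) e = fun u => k * (av k SkS (fun σ => pr i j σ *
      SkS e σ) u - (1 - x) * (av k SkS (pr i j) u * av k SkS (SkS e) u)) := rfl
  have h3 : one' k (SkS (n := n)) x e = fun u => k * x * av k SkS (SkS e) u := rfl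
  rw [h1, h2, h3, RR_const_mul, RR_const_mul,
    RR_sub k SkS x _ (eg_av k SkS _) (((eg_av k SkS _).mul (eg_av k SkS _)).const_mul _),
    RR_const_mul]
  ring

/-- the second derivative of the value function, in terms of `DC` -/
lemma hsk_DC (t : ℝ) (z : Pair n → ℝ) (e i : Pair n) :
    hsk k SkS x t e i z = k * DC k x t e z i.1.1 i.1.2 := by
  rw [DC_eq]
  unfold hsk
  have e1 : (fun σ : Fin n → ℤˣ => SkS e σ * SkS i σ) = fun σ => pr i.1.1 i.1.2 σ * SkS e σ := by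
    funext σ
    exact mul_comm _ _
  have e2 : (fun u : Pair n → ℝ => av k SkS (SkS e) u * av k SkS (SkS i) u) =
      fun u => av k SkS (pr i.1.1 i.1.2) u * av k SkS (SkS e) u := by
    funext u
    exact mul_comm _ _
  have e3 : RR k (SkS (n := n)) x (fun _ => √(1 - t)) (av k SkS (SkS i)) z =
      RR k SkS x (fun _ => √(1 - t)) (av k SkS (pr i.1.1 i.1.2)) z := rfl
  rw [e1, e2, e3]
  ring

lemma DC_diag (t : ℝ) (z : Pair n → ℝ) (e : Pair n) (i : Fin n) : DC k x t e z i i = 0 := by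
  rw [DC_eq]
  have h1 : (pr i i : (Fin n → ℤˣ) → ℝ) = fun _ => 1 := pr_self i
  have h2 : av k (SkS (n := n)) (fun _ => (1 : ℝ)) = fun _ => 1 := by
    funext u
    exact av_one k SkS u
  rw [h1]
  simp only [one_mul, h2]
  rw [RR_const]
  ring

lemma DC_symm (t : ℝ) (z : Pair n → ℝ) (e : Pair n) (i j : Fin n) :
    DC k x t e z i j = DC k x t e z j i := R1C.DC_comm e z i j

/-- the rate -/
lemma rt_hsk (t : ℝ) (z : Pair n → ℝ) :
    ∑ e, ∑ i, hsk k SkS x t e i z ^ 2 = k ^ 2 / 2 * rt (DC k x) t z := by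
  unfold rt
  rw [Finset.mul_sum]
  refine Finset.sum_congr rfl fun e _ => ?_
  have h1 := sum_pairs (fun i j : Fin n => if i = j then 0 else DC k x t e z i j ^ 2)
    (fun p q => by rw [DC_symm t z e p q]; simp only [eq_comm]) (fun p => by simp)
  have h2 : ∀ i : Pair n, (if i.1.1 = i.1.2 then (0 : ℝ) else DC k x t e z i.1.1 i.1.2 ^ 2) =
      DC k x t e z i.1.1 i.1.2 ^ 2 := fun i => by rw [if_neg i.2.ne]
  simp only [h2] at h1
  have h3 : fr (DC k x t e z) = ∑ i : Fin n, ∑ j : Fin n,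
      (if i = j then 0 else DC k x t e z i j ^ 2) := by
    unfold fr
    refine Finset.sum_congr rfl fun i _ => Finset.sum_congr rfl fun j _ => ?_
    split_ifs with hij
    · rw [hij, DC_diag]; ring
    · rfl
  rw [h3, h1]
  simp only [hsk_DC, mul_pow]
  rw [← Finset.mul_sum]
  ring

lemma dfc_DC (hk : k ≠ 0) (hx : 0 < x) (hx1 : x ≤ 1) {s : ℝ} (hs : 0 < s) (z : Pair n → ℝ) :
    dfc (AA k x s z) ≤ 4 / (k ^ 2 * x ^ 2) * rt (DC k x) s z := by
  have h1 := kov_pos (k := k) hs hx.le hx1 z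
  have h2 := swap_pos (k := k) (x := x) hs z
  unfold dfc rt
  refine h2.trans ?_
  have hk2 : 0 < k ^ 2 := by positivity
  set Q := ∑ i, ∑ j, ∑ p, ∑ q, (T4 k x s z i j p q - AA k x s z i j * AA k x s z p q) ^ 2
  have h3 := mul_le_mul_of_nonneg_left h1 (by positivity : 0 ≤ 4 / (k ^ 2 * x ^ 2))
  refine le_trans (le_of_eq ?_) h3
  field_simp
  ring

/-- **The SK instance.** -/
theorem mr_sk (hk : k ≠ 0) (hx : 0 < x) (hx1 : x ≤ 1) :
    MR k x (lz k (SkS (n := n))) (fun e u => k * av k SkS (SkS e) u) (AA k x) (DC k x) where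
  toMRb := (mrep_sk (n := n) (k := k) (x := x) hk hx hx1
    (H := fun e i u => k * (k * (av k SkS (fun σ => SkS e σ * SkS i σ) u -
      av k SkS (SkS e) u * av k SkS (SkS i) u))) fun _ _ _ => rfl).toMRb
  egr t := EG.sum _ fun e _ => eg_frM fun i j => eg_DC hx.le e i j
  sw t ht z := dfc_DC hk hx hx1 ht z
  rad t t' ht htt' ht' v z := by
    have hsm := R1.sm_lz k (SkS (n := n))
    have h1 := cw_radial (x := x) (t := t) (t' := t') hsm (cv_lz k SkS) hx htt' ht' v z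
    refine h1.trans ((vH_le v (R1.hh x t (lz k SkS) (R1.Dz k SkS) (R1.Hz k SkS)) z).trans (le_of_eq ?_))
    congr 2
    rw [← rt_hsk]
    refine Finset.sum_congr rfl fun e _ => Finset.sum_congr rfl fun i _ => ?_
    congr 1
    rw [← hsk_eq]
    unfold R1.hh
    have e2 : ∀ φ, R1.ew x t (lz k (SkS (n := n))) φ z =
        RR k SkS x (fun _ => √(1 - t)) φ z := fun φ => (RR_eq k SkS x t φ z).symm
    have e4 : R1.Dz k (SkS (n := n)) = fun e u => k * av k SkS (SkS e) u := rfl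
    rw [e2, e2, e4, dd_gen, dd_gen]
    have e3 : R1.Hz k (SkS (n := n)) e i = fun u => k * (k * (av k SkS (fun σ => SkS e σ * SkS i σ) u -
        av k SkS (SkS e) u * av k SkS (SkS i) u)) := by
      funext u
      unfold R1.Hz
      ring
    rw [e3]

section main

variable {β A δ T ρ : ℝ} {q : Par}

lemma kk_ne (hf : Fo n β A δ T ρ q (lz (kk n β) SkS) (AA (kk n β) q.x) (DC (kk n β) q.x)) :
    kk n β ≠ 0 := by
  have h1 := kk_NN hf
  have h2 := hf.ρ1
  intro h0
  rw [h0] at h1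
  simp at h1
  linarith

/-- **(PO1)** for the SK model -/
theorem po1_sk (hf : Fo n β A δ T ρ q (lz (kk n β) SkS) (AA (kk n β) q.x) (DC (kk n β) q.x))
    (hA : 2 ≤ A) : R1C.NN n β ρ ^ 2 / (2 * A ^ 2) ≤ En q (lz (kk n β) (SkS (n := n)))
      (fun w => fr (AA (kk n β) q.x q.s1 (P2 q w) * AA (kk n β) q.x q.s2 (P3 q w))) :=
  po1_fo (mr_sk (kk_ne hf) hf.ok.x0 hf.ok.x1) (c11_lz _ _) hf rfl hA

/-- **(PO2)** for the SK model -/
theorem po2_sk (hf : Fo n β A δ T ρ q (lz (kk n β) SkS) (AA (kk n β) q.x) (DC (kk n β) q.x))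
    (hA : 10 ≤ A) (hTA : T ≤ 1 / A) : R1C.NN n β ρ ^ 2 / (4 * A ^ 3) ≤ En q (lz (kk n β) (SkS (n := n)))
      (fun w => fr (AA (kk n β) q.x q.s1 (P2 q w) * AA (kk n β) q.x q.s2 (P3 q w) -
        AA (kk n β) q.x q.s2 (P3 q w) * AA (kk n β) q.x q.s1 (P2 q w))) :=
  po2_fo (mr_sk (kk_ne hf) hf.ok.x0 hf.ok.x1) (c11_lz _ _) hf rfl hA hTA

end main

end Vale.Agent.P146.X9.H522
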