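import Vale.Agent.P146.X9.Base
import Vale.Agent.P146.X9.H640_LamO
import Vale.Agent.P146.H632.LamE
import Vale.Agent.P146.H332.CRowS
import Vale.Agent.P146.X9.H816_SkN
import Vale.Agent.P146.H504.Cum6
import Vale.Agent.P146.X9.H522_PoSk

/-!
Plan R1, the row (LAM) for the SK model: the upper bound of `T` (`lam_sk_out`).
-/

open MeasureTheory ProbabilityTheory

namespace Vale.Agent.P146.X9.R1S

open Vale.Agent.P146.R1S

open Vale.Agent.P157.Lv Vale.Agent.P146.H425 Vale.Agent.P146.H325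
  Vale.Agent.P146.H712 Vale.Agent.P146.R1 Vale.Agent.P146.R1C Vale.Agent.P146.H632 Matrix
open Vale.Agent.P146.X9.H425 Vale.Agent.P146.X9.H325 Vale.Agent.P146.X9.H712 Vale.Agent.P146.X9.R1 Vale.Agent.P146.X9.R1C
open Vale.Agent.P146.H332 hiding Nf Gf NN fr_nonneg
open Vale.Agent.P146.X9.H332

set_option linter.unusedSectionVars false

variable {n : ℕ} {k x s : ℝ} {S : CS n k x} {q : Par}

lemma vH_hvr (hs : 0 < s) (b b' : Fin n) (z : Pair n → ℝ) :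
    vH S s b b' z = hvr (S.H s) s b b' z := by
  have e : ∀ i j, EG fun u => (AvP s (row b') (fun u => S.H s b u i j) u -
      AvP s (row b ∪ row b') (fun u => S.H s b u i j) u) ^ 2 := fun i j =>
    ((eg_AvP (S.eg_H hs b i j) s _).sub (eg_AvP (S.eg_H hs b i j) s _)).pow 2
  unfold vH hvr
  rw [R1C.AvP_sum (R := row b ∪ row b') (s := s) Finset.univ
    (f := fun i u => ∑ j, (AvP s (row b') (fun u => S.H s b u i j) u -
      AvP s (row b ∪ row b') (fun u => S.H s b u i j) u) ^ 2)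
    (fun i _ => EG.sum _ fun j _ => e i j)]
  refine Finset.sum_congr rfl fun i _ => ?_
  exact R1C.AvP_sum (R := row b ∪ row b') (s := s) Finset.univ (fun j _ => e i j) z

/-- the inequality on a fixed bulk -/
theorem nlb_fix (S : CS n k x) (hq : q.OkS) (hs : 0 < q.s1) (b b' : Fin n) (hb : b' ≠ b)
    (w : K4 (Pair n) → ℝ) : (q.s2 - q.s1) / (2 * q.s1) * fr (Nd S q b b' w) ≤
      Gb S q b b' w + 2 * (q.s2 / q.s1) * nlb S q b b' w := by
  have hs2 : 0 < q.s2 := lt_of_lt_of_le hs hq.h12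
  have h := lam_fix_s (S := S) hq hs (rowIn_S S hs) (rowIn_S S hs2) (Ne.symm hb) w
  rw [← vH_hvr hs, ← vH_hvr hs2] at h
  unfold nlb
  linarith

/-- the variance of the row gradients -/
lemma vH_le {Γ : ℝ} (hFn : Cum.Fn k SkS (uu x s S.F) (S.mu s) Γ) (hs : 0 < s) (b b' : Fin n)
    (z : Pair n → ℝ) : vH S s b b' z ≤ 36 * Γ ^ 6 * s ^ 2 * k ^ 4 *
      AvP s (row b ∪ row b') (fun z => Q4 S s z) z :=
  Cum.i1 hFn hs (row b') b z

end Vale.Agent.P146.X9.R1S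

namespace Vale.Agent.P146.X9.R1C

open Vale.Agent.P146.R1C

open Vale.Agent.P157.Lv Vale.Agent.P146.H425 Vale.Agent.P146.H325
  Vale.Agent.P146.H712 Vale.Agent.P146.R1 Matrix
open Vale.Agent.P146.X9.H425 Vale.Agent.P146.X9.H325 Vale.Agent.P146.X9.H712 Vale.Agent.P146.X9.R1
open Vale.Agent.P146.H332 hiding Nf Gf NN fr_nonneg
open Vale.Agent.P146.X9.H332

set_option linter.unusedSectionVars false

/-- the hypotheses of the numbers hold for all large `n` -/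
theorem numH_of {β : ℝ} (hβ : 0 < β) : ∃ n₀ : ℕ, 2 ≤ n₀ ∧ ∀ n : ℕ, n₀ ≤ n →
    ∀ (A δ T ρ : ℝ) (q : Par), FoSk n β A δ T ρ q → NumH n β A δ T ρ ((n : ℝ) ^ 200)⁻¹ q := by
  obtain ⟨n₁, h1, hn₁⟩ := law2_of hβ
  obtain ⟨n₂, h2, hn₂⟩ := law_const hβ
  refine ⟨max n₁ n₂, h1.trans (le_max_left _ _), fun n hn A δ T ρ q hf => ?_⟩
  have hn2 : (2 : ℝ) ≤ n := hf.n0
  have hnn : 0 < n := by have := hf.n2; omega
  refine ⟨hf, ?_, by positivity, ?_, ?_⟩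
  · refine hn₁ n ((le_max_left _ _).trans hn) q (Fk n β) _ _ _ c11_sk hf.ok hf.x7 fun b b' z => ?_
    have h3 := Dsk_rows (k := kk n β) b b' z
    have h4 := kk_sq hnn β
    calc _ ≤ 2 * kk n β ^ 2 * n := h3
      _ = 2 * (kk n β ^ 2 * n) := by ring
      _ = _ := by rw [h4]
  · rw [← div_eq_mul_inv, div_le_one (by positivity)]
    exact pow_le_pow_right₀ (by linarith) (by norm_num)
  · exact (hn₂ n ((le_max_right _ _).trans hn) q.x hf.ok.x0 hf.x7).1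

/-- **(LAM) for the SK model.** -/
theorem lam_sk_out {β : ℝ} (hβ : 0 < β) : ∃ C : ℝ, 1 ≤ C ∧ ∃ n₀ : ℕ, ∀ n : ℕ, n₀ ≤ n →
    ∀ (A δ T ρ : ℝ) (q : Par), 2 ≤ A →
      Fo n β A δ T ρ q (lz (kk n β) SkS) (AA (kk n β) q.x) (DC (kk n β) q.x) →
        T ≤ C * A ^ 12 * (√(1 / (n * T)) + q.x * (√(NN n β ρ) / n) + (√(NN n β ρ) / n) ^ 2 +
          1 / n) := by
  obtain ⟨n₀, -, hn₀⟩ := numH_of hβ
  set B0 : ℝ := 151920 * (β ^ 6 + β ^ 3) + 365 * β ^ 4 + 128 * (36 * 4 ^ 6) * β ^ 8 + 1 with hB0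
  have hB1 : 1 ≤ B0 := by
    rw [hB0]
    have : 0 ≤ 151920 * (β ^ 6 + β ^ 3) + 365 * β ^ 4 + 128 * (36 * 4 ^ 6) * β ^ 8 := by positivity
    linarith
  refine ⟨64 * B0 ^ 3, ?_, n₀, fun n hn A δ T ρ q hA2 hf => ?_⟩
  · have := one_le_pow₀ hB1 (n := 3)
    linarith
  have hnum := hn₀ n hn A δ T ρ q hf
  have hA : 1 ≤ A := hf.A1
  have hN := hf.N0
  have hn2 : (2 : ℝ) ≤ n := hf.n0
  have hT := hf.Tp
  have hx := hf.ok.x0
  have hk := hf.kk0
  set S := R1S.skCS n hk hx hf.ok.x1 with hS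
  have hs1 : 0 < q.s1 := hnum.s1p
  have hfS : Fo n β A δ T ρ q S.F S.A S.DA := hf
  have hE : 0 ≤ √(1 / (n * T)) := Real.sqrt_nonneg _
  have e0 : √(1 / (n * T)) = 1 / √(n * T) := by
    rw [Real.sqrt_div zero_le_one, Real.sqrt_one]
  have heC : eC n β A T ρ q ≤ (β ^ 6 + β ^ 3) * A ^ 3 * NN n β ρ ^ 2 *
      (√(1 / (n * T)) + q.x * (√(NN n β ρ) / n)) := by
    unfold eC
    have hA3 : A ^ 2 ≤ A ^ 3 := pow_le_pow_right₀ hA (by norm_num)
    have a1 : 0 ≤ β ^ 6 * A ^ 3 * NN n β ρ ^ 2 * √(1 / (n * T)) := by positivity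
    have a2 : 0 ≤ β ^ 3 * A ^ 3 * NN n β ρ ^ 2 * (q.x * (√(NN n β ρ) / n)) := by positivity
    have a3 : β ^ 3 * A ^ 2 * (NN n β ρ ^ 2 / √(n * T)) ≤
        β ^ 3 * A ^ 3 * NN n β ρ ^ 2 * √(1 / (n * T)) := by
      rw [e0]
      have : β ^ 3 * A ^ 2 * (NN n β ρ ^ 2 / √(n * T)) =
        β ^ 3 * A ^ 2 * NN n β ρ ^ 2 * (1 / √(n * T)) := by ring
      rw [this]
      refine mul_le_mul_of_nonneg_right ?_ (by positivity)
      exact mul_le_mul_of_nonneg_right (mul_le_mul_of_nonneg_left hA3 (by positivity))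
        (by positivity)
    have a4 : (β ^ 6 + β ^ 3) * A ^ 3 * NN n β ρ ^ 2 *
      (√(1 / (n * T)) + q.x * (√(NN n β ρ) / n)) =
      β ^ 6 * A ^ 3 * NN n β ρ ^ 2 * √(1 / (n * T)) +
      β ^ 3 * A ^ 3 * NN n β ρ ^ 2 * (q.x * (√(NN n β ρ) / n)) +
      β ^ 3 * A ^ 3 * NN n β ρ ^ 2 * √(1 / (n * T)) +
      β ^ 6 * A ^ 3 * (q.x * (√(NN n β ρ) / n) * NN n β ρ ^ 2) := by ring
    rw [a4]
    linarith
  have hA34 : A ^ 3 ≤ A ^ 4 := pow_le_pow_right₀ hA (by norm_num)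
  have hA24 : A ^ 2 ≤ A ^ 4 := pow_le_pow_right₀ hA (by norm_num)
  have hA14 : A ≤ A ^ 4 := le_self_pow₀ hA (by norm_num)
  have hA4 : 1 ≤ A ^ 4 := one_le_pow₀ hA
  have hA0 : 0 ≤ A ^ 3 := by positivity
  have hBA : A ≤ B0 * A ^ 4 := by nlinarith
  have hB : 1 ≤ B0 * A ^ 4 := by nlinarith
  have heC0 : 0 ≤ eC n β A T ρ q := by
    obtain ⟨h4, h5⟩ := hnum.eC_parts
    unfold eC
    linarith
  have key := R1S.lam_out_S (S := S) (cI := 36 * 4 ^ 6) (B := B0 * A ^ 4)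
    (e1 := 101280 * eC n β A T ρ q) (e3 := 50640 * eC n β A T ρ q) hfS hnum.law (by norm_num)
    (fun s hs0 hs1' b b' hb z => R1S.vH_le (Cum.fn_skCS hk hx hf.ok.x1 s) hs0 b b' z)
    (fun b b' hb w => R1S.nlb_fix S hf.ok hs1 b b' hb w) hnum.n1 hnum.n3 hB hBA (by linarith)
    (by
      have a1 : 101280 * eC n β A T ρ q + 50640 * eC n β A T ρ q =
        151920 * eC n β A T ρ q := by ring
      rw [a1]
      refine (mul_le_mul_of_nonneg_left heC (by norm_num)).trans ?_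
      have a2 : 0 ≤ NN n β ρ ^ 2 * (√(1 / (n * T)) + q.x * (√(NN n β ρ) / n)) := by positivity
      have a3 : 151920 * ((β ^ 6 + β ^ 3) * A ^ 3) ≤ B0 * A ^ 4 := by
        have a4 : 151920 * (β ^ 6 + β ^ 3) ≤ B0 := by
          rw [hB0]
          have : 0 ≤ 365 * β ^ 4 + 128 * (36 * 4 ^ 6) * β ^ 8 := by positivity
          linarith
        calc 151920 * ((β ^ 6 + β ^ 3) * A ^ 3) = 151920 * (β ^ 6 + β ^ 3) * A ^ 3 := by ring
          _ ≤ B0 * A ^ 4 := mul_le_mul a4 hA34 hA0 (by linarith)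
      calc 151920 * ((β ^ 6 + β ^ 3) * A ^ 3 * NN n β ρ ^ 2 *
            (√(1 / (n * T)) + q.x * (√(NN n β ρ) / n)))
          = 151920 * ((β ^ 6 + β ^ 3) * A ^ 3) * (NN n β ρ ^ 2 *
            (√(1 / (n * T)) + q.x * (√(NN n β ρ) / n))) := by ring
        _ ≤ B0 * A ^ 4 * (NN n β ρ ^ 2 *
            (√(1 / (n * T)) + q.x * (√(NN n β ρ) / n))) := mul_le_mul_of_nonneg_right a3 a2
        _ = _ := by ring)
    (by
      refine hnum.dg.trans ?_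
      have a4 : 365 * β ^ 4 ≤ B0 := by
        rw [hB0]
        have : 0 ≤ 151920 * (β ^ 6 + β ^ 3) + 128 * (36 * 4 ^ 6) * β ^ 8 := by positivity
        linarith
      have a5 : (0 : ℝ) ≤ NN n β ρ ^ 2 / n := by positivity
      calc 365 * (β ^ 4 * A ^ 2 * (NN n β ρ ^ 2 / n))
          = 365 * β ^ 4 * A ^ 2 * (NN n β ρ ^ 2 / n) := by ring
        _ ≤ B0 * A ^ 4 * (NN n β ρ ^ 2 / n) :=
          mul_le_mul_of_nonneg_right (mul_le_mul a4 hA24 (by positivity) (by linarith)) a5)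
    (H522.po1_sk hf hA2)
    (by
      have a4 : 128 * (36 * 4 ^ 6) * β ^ 8 ≤ B0 := by
        rw [hB0]
        have : 0 ≤ 151920 * (β ^ 6 + β ^ 3) + 365 * β ^ 4 := by positivity
        linarith
      exact mul_le_mul a4 hA34 hA0 (by linarith))
  refine key.trans (le_of_eq ?_)
  ring

end Vale.Agent.P146.X9.R1C
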