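import Vale.Agent.P146.X9.Base
import Vale.Agent.P146.X9.H604_HNumG
import Vale.Agent.P146.H706.LamSum

/-!
R1, block C, the h-row in numbers, from the output `Fo` of the block F.
-/

open MeasureTheory ProbabilityTheory

namespace Vale.Agent.P146.X9.R1C

open Vale.Agent.P146.R1C

open Vale.Agent.P157.Lv Vale.Agent.P146.H425 Vale.Agent.P146.H332 Vale.Agent.P146.H325
  Vale.Agent.P146.H712 Vale.Agent.P146.R1 Vale.Agent.P146.H816 Vale.Agent.P146.H604 Matrix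
open Vale.Agent.P146.X9.H425 Vale.Agent.P146.X9.H332 Vale.Agent.P146.X9.H325 Vale.Agent.P146.X9.H712 Vale.Agent.P146.X9.R1 Vale.Agent.P146.X9.H816 Vale.Agent.P146.X9.H604

set_option linter.unusedSectionVars false

section gen

variable {n : ℕ} {q : Par} {F : (Pair n → ℝ) → ℝ} {D : Pair n → (Pair n → ℝ) → ℝ}
  {B L ε : ℝ} {C : (Pair n → ℝ) → Matrix (Fin n) (Fin n) ℝ}
  {E : Pair n → (Pair n → ℝ) → Matrix (Fin n) (Fin n) ℝ} {c : Fin 4 → ℝ}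

lemma vs_nonneg' {ι : Type} [Fintype ι] (v : ι → ℝ) : 0 ≤ H706.vs v :=
  Finset.sum_nonneg fun _ _ => sq_nonneg _

/-- **The inputs of the h-row**, for the matrix `C` at a position. -/
theorem hin_gen (h : C11 F D B L) (hq : q.OkS) (hl : H326.LCh q F ε) (hε0 : 0 ≤ ε)
    (hεn : (n : ℝ) ^ 20 * ε ≤ 1) (n2 : (2 : ℝ) ≤ n) (hC : ∀ i j, EG fun z => C z i j)
    (hE : ∀ e i j, EG fun z => E e z i j)
    (hd : ∀ e i j, PD e (fun z => C z i j) (fun z => E e z i j))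
    (hc : c 0 ^ 2 + c 1 ^ 2 + c 2 ^ 2 + c 3 ^ 2 ≤ 1)
    (hb : ∀ z, fr (C z) ≤ (n : ℝ) ^ 2) (hr : ∀ z, ∑ e, fr (E e z) ≤ 9 * (n : ℝ) ^ 4)
    {W δ T u : ℝ} (hW : 1 ≤ W) (hδ0 : 0 ≤ δ)
    (hδ : En q F (fun w => if W < fr (C (H712.lp c w)) then (1 : ℝ) else 0) ≤ δ)
    (hδn : (n : ℝ) ^ 200 * δ ≤ 1) (hT0 : 0 < T) (hT1 : T ≤ 1)
    (hrt : En q F (fun w => ∑ e, fr (E e (H712.lp c w))) ≤ W / T)
    (hu : W / n ≤ u) (hu1 : 1 ≤ u) {m4 m8 lm : ℝ} (hm8 : 5 * u ^ 4 ≤ m8)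
    (h2 : ∀ b b' : Fin n, b' ≠ b → ∫ w, ph q F b b' w *
      H706.vs (H816.col (C (H712.lp c w)) b) ^ 2 ∂(gI (K4 (Pair n))) ≤ Ew q F (fun _ => 1) * m4)
    (h4 : ∀ b b' : Fin n, b' ≠ b → ∀ i, i = b ∨ i = b' → ∫ w, ph q F b b' w *
      H706.vs (H816.col (C (H712.lp c w)) i) ^ 4 ∂(gI (K4 (Pair n))) ≤ Ew q F (fun _ => 1) * m8)
    (hlam : ∀ b b' : Fin n, b' ≠ b → ∀ f : (K4 (Pair n) → ℝ) → ℝ, EG f →
      ∫ w, ph q F b b' w * f w ^ 2 ∂(gI (K4 (Pair n))) ≤ Ew q F (fun _ => 1) * m8 →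
      |∫ w, dens q F w * f w ∂(gI (K4 (Pair n))) - ∫ w, ph q F b b' w * f w ∂(gI (K4 (Pair n)))| ≤
        Ew q F (fun _ => 1) * lm)
    {M : Fin n → Fin n → ℝ} (hM : ∀ b b', b' ≠ b → Ew q F (fun _ => 1) * (5 * u ^ 3) ≤ M b b') :
    ∃ ζ : Fin n → Fin n → ℝ, HIn q F (fun w => C (H712.lp c w)) M
        (fun _ _ => Ew q F (fun _ => 1) * m4) ζ (fun _ _ => Ew q F (fun _ => 1) * lm) ∧
      (∀ b b', 0 ≤ ζ b b') ∧
      ∑ b : Fin n, ∑ b' ∈ Finset.univ.erase b, ζ b b' ^ 2 ≤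
        Ew q F (fun _ => 1) * (68 * (W ^ 2 / (n * T))) := by
  have hA : ∀ i j, EG fun w : K4 (Pair n) → ℝ => C (H712.lp c w) i j := fun i j => eg_lp c (hC i j)
  obtain ⟨Am, hAm⟩ : ∃ Am : (K4 (Pair n) → ℝ) → Matrix (Fin n) (Fin n) ℝ,
      Am = fun w => C (H712.lp c w) := ⟨_, rfl⟩
  have hAe : ∀ i j, EG fun w => Am w i j := by rw [hAm]; exact hA
  have hbm : ∀ w, fr (Am w) ≤ (n : ℝ) ^ 2 := by rw [hAm]; exact fun w => hb _
  have hδm : En q F (fun w => if W < fr (Am w) then (1 : ℝ) else 0) ≤ δ := by rw [hAm]; exact hδ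
  have hZe := eg_Zn hAe
  have hcol : ∀ i j, EG fun w => H816.col (Am w) i j := fun i j => hAe j i
  have hvs : ∀ i, EG fun w => H706.vs (H816.col (Am w) i) := fun i =>
    EG.sum _ fun j _ => (hcol i j).pow 2
  have hph : ∀ b b' : Fin n, EG (ph q F b b') := fun b b' => H326.eg_ph_s h hq b b'
  have hp0 : ∀ (b b' : Fin n) w, 0 ≤ ph q F b b' w := fun b b' w => H326.ph_nonneg_s h hq b b' w
  have hE1 := Ew1_pos (q := q) h hq.x0
  have mom := fun (b b' : Fin n) (p : ℕ) (hp : p ≤ 10) =>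
    Zn_mom h hq hl hε0 hεn n2 hAe hbm (by linarith) hδ0 hδm hδn hu hu1 b b' p hp
  -- the squares
  have half : ∀ b b' : Fin n, b' ≠ b → ∀ f g : (K4 (Pair n) → ℝ) → ℝ, EG f → EG g →
      ∫ w, ph q F b b' w * f w ^ 4 ∂(gI (K4 (Pair n))) ≤ Ew q F (fun _ => 1) * m8 →
      ∫ w, ph q F b b' w * g w ^ 4 ∂(gI (K4 (Pair n))) ≤ Ew q F (fun _ => 1) * m8 →
      ∫ w, ph q F b b' w * (f w * g w) ^ 2 ∂(gI (K4 (Pair n))) ≤
        Ew q F (fun _ => 1) * m8 := by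
    intro b b' _ f g hf hg h1 h2
    have h3 : ∫ w, ph q F b b' w * (f w * g w) ^ 2 ∂(gI (K4 (Pair n))) ≤
        ∫ w, (1 / 2 * (ph q F b b' w * f w ^ 4) + 1 / 2 * (ph q F b b' w * g w ^ 4))
          ∂(gI (K4 (Pair n))) := by
      refine integral_mono ((hph b b').mul ((hf.mul hg).pow 2)).integrable
        ((((hph b b').mul (hf.pow 4)).const_mul _).add
          (((hph b b').mul (hg.pow 4)).const_mul _)).integrable fun w => ?_
      have a1 := mul_le_mul_of_nonneg_left (by nlinarith [sq_nonneg (f w ^ 2 - g w ^ 2)] :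
        (f w * g w) ^ 2 ≤ 1 / 2 * (f w ^ 4 + g w ^ 4)) (hp0 b b' w)
      refine a1.trans (le_of_eq ?_)
      ring
    rw [integral_add (((hph b b').mul (hf.pow 4)).const_mul _).integrable
      (((hph b b').mul (hg.pow 4)).const_mul _).integrable, integral_const_mul,
      integral_const_mul] at h3
    linarith
  have hZ4 : ∀ b b' : Fin n, ∫ w, ph q F b b' w * Zn Am w ^ 4 ∂(gI (K4 (Pair n))) ≤
      Ew q F (fun _ => 1) * m8 := fun b b' =>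
    (mom b b' 4 (by norm_num)).trans (mul_le_mul_of_nonneg_left hm8 hE1.le)
  have h4m : ∀ b b' : Fin n, b' ≠ b → ∀ i, i = b ∨ i = b' → ∫ w, ph q F b b' w *
      H706.vs (H816.col (Am w) i) ^ 4 ∂(gI (K4 (Pair n))) ≤ Ew q F (fun _ => 1) * m8 := by
    rw [hAm]; exact h4
  have h2m : ∀ b b' : Fin n, b' ≠ b → ∫ w, ph q F b b' w *
      H706.vs (H816.col (Am w) b) ^ 2 ∂(gI (K4 (Pair n))) ≤ Ew q F (fun _ => 1) * m4 := by
    rw [hAm]; exact h2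
  have htch := Zn_touch h hq hl hε0 hεn n2 hC hE hd hc hb hr hW hδ0 hδ hδn hT0 hT1 hrt
  rw [← hAm] at htch ⊢
  have hi0 : ∀ b b' : Fin n, 0 ≤ ∫ w, ph q F b b' w *
      (Zn Am w - Av (lf (row b ∪ row b')) (Zn Am) w) ^ 2 ∂(gI (K4 (Pair n))) := fun b b' =>
    integral_nonneg fun w => mul_nonneg (hp0 b b' w) (sq_nonneg _)
  refine ⟨fun b b' => √(∫ w, ph q F b b' w *
      (Zn Am w - Av (lf (row b ∪ row b')) (Zn Am) w) ^ 2 ∂(gI (K4 (Pair n)))),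
    ⟨hAe, fun b b' hb' => (mom b b' 3 (by norm_num)).trans (hM b b' hb'), h2m,
      fun b b' _ => Real.sqrt_nonneg _, fun b b' _ => (Real.sq_sqrt (hi0 b b')).ge, ?_, ?_, ?_⟩,
    fun b b' => Real.sqrt_nonneg _, ?_⟩
  · intro b b' hb'
    have a1 := half b b' hb' _ _ (hvs b) (hvs b') (h4m b b' hb' b (Or.inl rfl))
      (h4m b b' hb' b' (Or.inr rfl))
    have a2 := hlam b b' hb' (fun w => H706.vs (H816.col (Am w) b) * H706.vs (H816.col (Am w) b'))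
      ((hvs b).mul (hvs b')) a1
    have := (abs_le.1 a2).1
    linarith
  · intro b b' hb'
    have a1 := half b b' hb' _ _ (hvs b) hZe (h4m b b' hb' b (Or.inl rfl)) (hZ4 b b')
    have a2 := hlam b b' hb' (fun w => H706.vs (H816.col (Am w) b) * Zn Am w)
      ((hvs b).mul hZe) a1
    have := (abs_le.1 a2).2
    linarith
  · intro b b' hb'
    have a1 : ∫ w, ph q F b b' w * (Zn Am w ^ 2) ^ 2 ∂(gI (K4 (Pair n))) ≤
        Ew q F (fun _ => 1) * m8 := by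
      have e1 : ∀ w, (Zn Am w ^ 2) ^ 2 = Zn Am w ^ 4 := fun w => by ring
      simp only [e1]
      exact hZ4 b b'
    have a2 := hlam b b' hb' (fun w => Zn Am w ^ 2) (hZe.pow 2) a1
    have := (abs_le.1 a2).1
    linarith
  · refine le_trans (le_of_eq ?_) htch
    refine Finset.sum_congr rfl fun b _ => Finset.sum_congr rfl fun b' _ => ?_
    exact Real.sq_sqrt (hi0 b b')

end gen

/-! ### the numbers -/

section num

/-- the constant of the h-row -/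
noncomputable def Hc (β c4 : ℝ) : ℝ :=
  50640 * c4 * (1 + 1 / β ^ 2) ^ 3 * β ^ 6 + 12800 * (1 + 1 / β ^ 2) ^ 2 * β ^ 3 + 224 * β ^ 2

/-- **The sum of the errors of the h-row.** -/
lemma hnum {n β A N x k y T g c4 m4 : ℝ} (hn : 0 < n) (hβ : 0 < β) (hA : 1 ≤ A) (hN : 0 < N)
    (hx : 0 ≤ x) (hk : k ^ 2 * n = β ^ 2) (hk0 : 0 ≤ k) (hT : 0 < T)
    (hy : k ^ 2 * (A * N) = y) (hg : g = 1 + 1 / β ^ 2) (hc4 : 0 ≤ c4)
    (hm : m4 ≤ c4 ^ 4 * y ^ 2) :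
    4 * (n ^ 2 * (6 * x * k * √(√m4) * √(4449608 * (g * y) ^ 4))) +
        8 * (n * √(48884 * (g * y) ^ 3 * (52 * (A * N / T)))) +
        2 * (n * √(182 * y ^ 2 * (68 * ((A * N) ^ 2 / (n * T))))) ≤
      Hc β c4 * A ^ 3 * (x * (√N / n) * N ^ 2 + N ^ 2 / √(n * T)) := by
  have hg1 : 1 ≤ g := by rw [hg]; have : 0 ≤ 1 / β ^ 2 := by positivity
                         linarith
  have hy0 : 0 ≤ y := by rw [← hy]; positivity
  have e1 : √(4449608 * (g * y) ^ 4) ≤ 2110 * g ^ 2 * y ^ 2 := by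
    rw [Real.sqrt_le_left (by positivity)]
    have : 0 ≤ (g * y) ^ 4 := by positivity
    nlinarith
  have e2 : √(√m4) ≤ c4 * √y := by
    have h1 : √m4 ≤ c4 ^ 2 * y := by
      rw [Real.sqrt_le_left (by positivity)]
      calc m4 ≤ c4 ^ 4 * y ^ 2 := hm
        _ = (c4 ^ 2 * y) ^ 2 := by ring
    refine (Real.sqrt_le_sqrt h1).trans (le_of_eq ?_)
    rw [Real.sqrt_mul (sq_nonneg _), Real.sqrt_sq hc4]
  have t1 : n ^ 2 * (6 * x * k * √(√m4) * √(4449608 * (g * y) ^ 4)) ≤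
      12660 * c4 * g ^ 2 * (β ^ 6 * A ^ 3 * (x * (√N / n) * N ^ 2)) := by
    calc n ^ 2 * (6 * x * k * √(√m4) * √(4449608 * (g * y) ^ 4))
        ≤ n ^ 2 * (6 * x * k * (c4 * √y) * (2110 * g ^ 2 * y ^ 2)) := by gcongr
      _ = 12660 * c4 * g ^ 2 * (n ^ 2 * (x * (k * √y) * y ^ 2)) := by ring
      _ ≤ _ := mul_le_mul_of_nonneg_left (num_ls hn hβ hA hx hk hk0 hy) (by positivity)
  have t2 : n * √(48884 * (g * y) ^ 3 * (52 * (A * N / T))) ≤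
      1600 * g ^ 2 * (β ^ 3 * A ^ 2 * (N ^ 2 / √(n * T))) := by
    have h1 : √(48884 * (g * y) ^ 3 * (52 * (A * N / T))) ≤
        1600 * g ^ 2 * √(y ^ 3 * (A * N / T)) := by
      have h2 : 1600 * g ^ 2 * √(y ^ 3 * (A * N / T)) =
          √((1600 * g ^ 2) ^ 2 * (y ^ 3 * (A * N / T))) := by
        rw [Real.sqrt_mul (sq_nonneg _), Real.sqrt_sq (by positivity)]
      rw [h2]
      refine Real.sqrt_le_sqrt ?_
      have h3 : 0 ≤ y ^ 3 * (A * N / T) := by positivity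
      have h4 : 48884 * 52 * g ^ 3 ≤ (1600 * g ^ 2) ^ 2 := by
        have : g ^ 3 ≤ g ^ 4 := pow_le_pow_right₀ hg1 (by norm_num)
        have : 0 ≤ g ^ 4 := by positivity
        nlinarith
      calc 48884 * (g * y) ^ 3 * (52 * (A * N / T)) =
            48884 * 52 * g ^ 3 * (y ^ 3 * (A * N / T)) := by ring
        _ ≤ _ := mul_le_mul_of_nonneg_right h4 h3
    calc n * √(48884 * (g * y) ^ 3 * (52 * (A * N / T)))
        ≤ n * (1600 * g ^ 2 * √(y ^ 3 * (A * N / T))) := mul_le_mul_of_nonneg_left h1 hn.le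
      _ = 1600 * g ^ 2 * (n * √(y ^ 3 * (A * N / T))) := by ring
      _ = _ := by rw [num_dl hn hβ hA hk hT hy]
  have t3 : n * √(182 * y ^ 2 * (68 * ((A * N) ^ 2 / (n * T)))) ≤
      112 * (β ^ 2 * A ^ 2 * (N ^ 2 / √(n * T))) := by
    have h1 : √(182 * y ^ 2 * (68 * ((A * N) ^ 2 / (n * T)))) ≤
        112 * (y * (A * N) / √(n * T)) := by
      rw [Real.sqrt_le_left (by positivity)]
      have h2 : (112 * (y * (A * N) / √(n * T))) ^ 2 =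
          12544 * (y ^ 2 * ((A * N) ^ 2 / (n * T))) := by
        rw [mul_pow, div_pow, Real.sq_sqrt (by positivity)]
        ring
      rw [h2]
      have h3 : 0 ≤ y ^ 2 * ((A * N) ^ 2 / (n * T)) := by positivity
      nlinarith
    have h5 : n * (y * (A * N)) = β ^ 2 * A ^ 2 * N ^ 2 := by
      rw [← hy, ← hk]; ring
    calc n * √(182 * y ^ 2 * (68 * ((A * N) ^ 2 / (n * T))))
        ≤ n * (112 * (y * (A * N) / √(n * T))) := mul_le_mul_of_nonneg_left h1 hn.le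
      _ = 112 * (n * (y * (A * N)) / √(n * T)) := by ring
      _ = _ := by rw [h5]; ring
  have hA0 : 0 < A := by linarith
  obtain ⟨X1, hX1⟩ : ∃ X1, X1 = x * (√N / n) * N ^ 2 := ⟨_, rfl⟩
  obtain ⟨X2, hX2⟩ : ∃ X2, X2 = N ^ 2 / √(n * T) := ⟨_, rfl⟩
  have hX10 : 0 ≤ X1 := by rw [hX1]; positivity
  have hX20 : 0 ≤ X2 := by rw [hX2]; positivity
  rw [← hX1] at t1 ⊢
  rw [← hX2] at t2 t3 ⊢
  have hA23 : A ^ 2 ≤ A ^ 3 := pow_le_pow_right₀ hA (by norm_num)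
  have s1 : 4 * (12660 * c4 * g ^ 2 * (β ^ 6 * A ^ 3 * X1)) ≤
      50640 * c4 * g ^ 3 * β ^ 6 * A ^ 3 * X1 := by
    have h1 : g ^ 2 ≤ g ^ 3 := pow_le_pow_right₀ hg1 (by norm_num)
    have h2 : 0 ≤ 50640 * c4 * (β ^ 6 * A ^ 3 * X1) := by positivity
    have h3 := mul_le_mul_of_nonneg_left h1 h2
    linarith
  have s2 : 8 * (1600 * g ^ 2 * (β ^ 3 * A ^ 2 * X2)) ≤ 12800 * g ^ 2 * β ^ 3 * A ^ 3 * X2 := by
    have h2 : 0 ≤ 12800 * g ^ 2 * β ^ 3 * X2 := by positivity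
    have h3 := mul_le_mul_of_nonneg_left hA23 h2
    linarith
  have s3 : 2 * (112 * (β ^ 2 * A ^ 2 * X2)) ≤ 224 * β ^ 2 * A ^ 3 * X2 := by
    have h2 : 0 ≤ 224 * β ^ 2 * X2 := by positivity
    have h3 := mul_le_mul_of_nonneg_left hA23 h2
    linarith
  have s4 : Hc β c4 * A ^ 3 * (X1 + X2) =
      50640 * c4 * g ^ 3 * β ^ 6 * A ^ 3 * X1 + 12800 * g ^ 2 * β ^ 3 * A ^ 3 * X2 +
        224 * β ^ 2 * A ^ 3 * X2 + (50640 * c4 * g ^ 3 * β ^ 6 * A ^ 3 * X2 +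
        12800 * g ^ 2 * β ^ 3 * A ^ 3 * X1 + 224 * β ^ 2 * A ^ 3 * X1) := by
    unfold Hc
    rw [← hg]
    ring
  rw [s4]
  have s5 : 0 ≤ 50640 * c4 * g ^ 3 * β ^ 6 * A ^ 3 * X2 +
        12800 * g ^ 2 * β ^ 3 * A ^ 3 * X1 + 224 * β ^ 2 * A ^ 3 * X1 := by positivity
  linarith

end num

end Vale.Agent.P146.X9.R1C
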