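import Vale.Agent.P146.X9.Base
import Vale.Agent.P146.H706.D4d

/-!
The choice of the exponents of the deep layers, for a finite set of laws `P_θ` with a signed tilt
`θ` and any positions `t0`, `t1`.
-/

open MeasureTheory ProbabilityTheory

namespace Vale.Agent.P146.X9.R1

open Vale.Agent.P146.R1

open Vale.Agent.P157.Lv Vale.Agent.P146.H425
open Vale.Agent.P146.H785 (Ax)

set_option linter.unusedSectionVars false

/-- The exponent, the tilt and the two positions of a law. -/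
structure Pt where
  /-- the exponent -/
  x : ℝ
  /-- the tilt -/
  θ : ℝ
  /-- the first position -/
  t0 : ℝ
  /-- the second position -/
  t1 : ℝ

variable {κ : Type} [Fintype κ] {F : (κ → ℝ) → ℝ} {D : κ → (κ → ℝ) → ℝ} {B L : ℝ}

/-- The law of the endpoint for the undressed functional. -/
noncomputable def Lg (F : (κ → ℝ) → ℝ) (p : Pt) (φ : (κ → ℝ) → ℝ) : ℝ :=
  Et p.x p.θ p.t0 p.t1 1 F fun _ _ z => φ z

section lg

variable {p : Pt} {φ ψ : (κ → ℝ) → ℝ}

lemma Lg_sub (h : C11 F D B L) (hp : 0 < p.x) (hφ : EG φ) (hψ : EG ψ) :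
    Lg F p (fun z => φ z - ψ z) = Lg F p φ - Lg F p ψ :=
  Et_sub h hp (E3.of2 hφ) (E3.of2 hψ)

lemma Lg_nonneg (h : C11 F D B L) (hp : 0 < p.x) (h0 : ∀ z, 0 ≤ φ z) : 0 ≤ Lg F p φ :=
  Et_nonneg h hp fun _ _ z => h0 z

lemma Lg_le (h : C11 F D B L) (hp : 0 < p.x) (hφ : EG φ) {c : ℝ} (h0 : ∀ z, φ z ≤ c) :
    Lg F p φ ≤ c :=
  (Et_mono h hp (E3.of2 hφ) (E3.const c) fun _ _ z => h0 z).trans_eq (Et_const h hp c)

lemma Lg_sum (h : C11 F D B L) (hp : 0 < p.x) (s : Finset ℕ)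
    {φ : ℕ → (κ → ℝ) → ℝ} (hφ : ∀ l ∈ s, EG (φ l)) :
    Lg F p (fun z => ∑ l ∈ s, φ l z) = ∑ l ∈ s, Lg F p (φ l) := by
  classical
  induction s using Finset.induction_on with
  | empty =>
    simp only [Finset.sum_empty]
    exact Et_const h hp 0
  | insert a s ha ih =>
    simp only [Finset.sum_insert ha]
    rw [← ih fun l hl => hφ l (Finset.mem_insert_of_mem hl)]
    exact Et_add h hp (E3.of2 (hφ a (Finset.mem_insert_self a s)))
      (E3.of2 (EG.sum s fun l hl => hφ l (Finset.mem_insert_of_mem hl)))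

end lg

/-- **The choice of the exponents**, for a finite set of laws. -/
theorem d4_choice {ι : Type} [Fintype ι] [Nonempty ι] {Fb : ι → (κ → ℝ) → ℝ}
    {Db : ι → κ → (κ → ℝ) → ℝ} {Bb Lb : ι → ℝ} (hFb : ∀ b, C11 (Fb b) (Db b) (Bb b) (Lb b))
    (h : C11 F D B L) (σ : ℕ → ℝ) {J N : ℕ} (hN : 0 < N) {hh k0 : ℝ} (hh0 : 0 ≤ hh)
    (hk0 : 0 < k0)
    (hinc : ∀ b (m : ℕ → ℝ), (∀ j < J, 1 / ((J : ℝ) + 1) ≤ m j) → ∀ l < J, ∀ z,
      0 ≤ FD (Fb b) (ups m l hh) σ J z - FD (Fb b) m σ J z ∧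
        FD (Fb b) (ups m l hh) σ J z - FD (Fb b) m σ J z ≤ k0)
    (S : Finset Pt) (hS : ∀ p ∈ S, 0 < p.x) :
    ∃ g : ℕ → ℕ, (∀ j < J, 1 ≤ g j ∧ g j ≤ N) ∧
      ∑ p ∈ S, ∑ l ∈ Finset.range J, (∑ b, Lg F p
        (dsec (Fb b) (mgr J hh g) σ J l hh)) / Fintype.card ι ≤ k0 * ((S.card : ℝ) * J / N) := by
  classical
  have hι : (0 : ℝ) < Fintype.card ι := by exact_mod_cast Fintype.card_pos
  have hM : ∀ b g, EG (FD (Fb b) (mgr J hh g) σ J) := fun b g =>
    (c11_FD (σ := σ) (hFb b) J fun j hj => mgr_pos' hh0 g j hj).eg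
  set e : Pt → ℕ → (ℕ → ℕ) → ℝ := fun p l g => (∑ b, Lg F p (fun z =>
    FD (Fb b) (mgr J hh (Function.update g l (g l + 1))) σ J z -
      FD (Fb b) (mgr J hh g) σ J z)) / Fintype.card ι / k0 with he
  have hb : ∀ p ∈ S, ∀ l < J, ∀ g, 0 ≤ e p l g ∧ e p l g ≤ 1 := by
    intro p hp l hl g
    have hi : ∀ b z, 0 ≤ FD (Fb b) (mgr J hh (Function.update g l (g l + 1))) σ J z -
        FD (Fb b) (mgr J hh g) σ J z ∧
        FD (Fb b) (mgr J hh (Function.update g l (g l + 1))) σ J z -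
        FD (Fb b) (mgr J hh g) σ J z ≤ k0 := by
      intro b z
      have := hinc b (mgr J hh g) (fun j hj => mgr_pos hh0 g hj) l hl z
      rwa [ups_mgr] at this
    simp only [he]
    constructor
    · refine div_nonneg (div_nonneg (Finset.sum_nonneg fun b _ => ?_) hι.le) hk0.le
      exact Lg_nonneg h (hS p hp) fun z => (hi b z).1
    · rw [div_div, div_le_one (by positivity)]
      calc ∑ b, Lg F p (fun z => FD (Fb b) (mgr J hh (Function.update g l (g l + 1))) σ J z -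
            FD (Fb b) (mgr J hh g) σ J z) ≤ ∑ _b : ι, k0 :=
            Finset.sum_le_sum fun b _ => Lg_le h (hS p hp) ((hM b _).sub (hM b _))
              fun z => (hi b z).2
        _ = Fintype.card ι * k0 := by
            rw [Finset.sum_const, Finset.card_univ, nsmul_eq_mul]
  obtain ⟨g, hg, -, hsum⟩ := D4.grid_choice hN S e fun p hp l hl g _ => by
    have h1 := (hb p hp l hl (Function.update g l N)).2
    have h2 := (hb p hp l hl (Function.update g l 0)).1
    linarith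
  refine ⟨g, hg, ?_⟩
  have key : ∀ p ∈ S, ∀ l ∈ Finset.range J, (∑ b, Lg F p
      (dsec (Fb b) (mgr J hh g) σ J l hh)) / Fintype.card ι =
      k0 * (e p l g - e p l (Function.update g l (g l - 1))) := by
    intro p hp l hl
    have hgl := (hg l (Finset.mem_range.1 hl)).1
    have e1 : Function.update (Function.update g l (g l - 1)) l
        (Function.update g l (g l - 1) l + 1) = g := by
      rw [Function.update_self, Function.update_idem, Nat.sub_add_cancel hgl,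
        Function.update_eq_self]
    simp only [he]
    rw [e1, ← sub_div, ← sub_div, ← Finset.sum_sub_distrib, mul_div_cancel₀ _ hk0.ne']
    congr 1
    refine Finset.sum_congr rfl fun b _ => ?_
    rw [← Lg_sub h (hS p hp) ((hM b _).sub (hM b _)) ((hM b _).sub (hM b _))]
    congr 1
    funext z
    unfold dsec
    rw [ups_mgr, ups_mgr' J hh hgl]
    ring
  calc ∑ p ∈ S, ∑ l ∈ Finset.range J, (∑ b, Lg F p
        (dsec (Fb b) (mgr J hh g) σ J l hh)) / Fintype.card ι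
      = k0 * ∑ p ∈ S, ∑ l ∈ Finset.range J, (e p l g - e p l (Function.update g l (g l - 1))) := by
        rw [Finset.mul_sum]
        refine Finset.sum_congr rfl fun p hp => ?_
        rw [Finset.mul_sum]
        exact Finset.sum_congr rfl fun l hl => key p hp l hl
    _ ≤ _ := mul_le_mul_of_nonneg_left hsum hk0.le

/-- **The choice of the exponents of the deep layers**, for a finite set of laws with signed
tilts, for general functionals. -/
theorem d4_gen {n u : ℝ} (hu1 : 1 ≤ u) {C : ℝ} (J : ℕ) {lam : ℝ} (hlam : 0 ≤ lam)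
    (hu : lam * (C * n) = u) (κ : Type) [Fintype κ] [DecidableEq κ] (F : (κ → ℝ) → ℝ)
    (D : κ → (κ → ℝ) → ℝ) (B L : ℝ) (hF : C11 F D B L)
    (ι : Type) [Fintype ι] [Nonempty ι] (Fb : ι → (κ → ℝ) → ℝ)
    (Db : ι → κ → (κ → ℝ) → ℝ) (Bb Lb : ι → ℝ) (hFb : ∀ b, C11 (Fb b) (Db b) (Bb b) (Lb b))
    (hcv : ∀ b, Cv (Fb b)) (hBd : ∀ b z, ∑ e, Db b e z ^ 2 ≤ C * n) (c : ℝ)
    (hcl : ∀ m : ℕ → ℝ, (∀ j < J, 1 / ((J : ℝ) + 1) ≤ m j) → (∀ j < J, m j ≤ 1) →
        ∀ z, F z ≤ FD F m (fun _ => √lam) J z ∧ FD F m (fun _ => √lam) J z ≤ F z + c)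
    (S : Finset Pt) (hS : ∀ p ∈ S, 0 < p.x) (hSc : ∀ p ∈ S, 3 * p.x * c ≤ 1) :
      ∃ (m : ℕ → ℝ) (h : ℝ), 0 < h ∧ 1 / (24 * ((J : ℝ) + 1)) ≤ h / 2 * (lam * (C * n)) ∧
        h / 2 * (lam * (C * n)) ≤ 1 / (8 * ((J : ℝ) + 1)) ∧
        (∀ l < J, ((J : ℝ) - l) / (J + 1) + h ≤ m l ∧
          m l + h ≤ ((J : ℝ) - l) / (J + 1) + 1 / (4 * ((J : ℝ) + 1))) ∧
        ∀ q : R1C.Par, q.OkS → (⟨q.x, q.θ, q.t0, q.t1⟩ : Pt) ∈ S →
          (∑ b, R1C.En q (FD F m (fun _ => √lam) J) fun w => Ax q.x (√(1 - q.s1))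
            (FD F m (fun _ => √lam) J)
            (fun z => ∑ l ∈ Finset.range J, dsec (Fb b) m (fun _ => √lam) J l h z)
            (R1C.P2 q w)) / Fintype.card ι ≤ S.card / u ∧
          (∑ b, R1C.En q (FD F m (fun _ => √lam) J) fun w => Ax q.x (√(1 - q.s2))
            (FD F m (fun _ => √lam) J)
            (fun z => ∑ l ∈ Finset.range J, dsec (Fb b) m (fun _ => √lam) J l h z)
            (R1C.P3 q w)) / Fintype.card ι ≤ S.card / u := by
  rw [hu]
  obtain ⟨hN0, huN, hh0, hhN, hk1, hk2⟩ := mesh_num (J := J) hu1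
  set N := ⌈u⌉₊ with hN
  set h := 1 / (4 * ((J : ℝ) + 1) * (N + 1)) with hh
  set k0 := h / 2 * u with hk0
  have hJ : (0 : ℝ) < (J : ℝ) + 1 := by positivity
  have hJ0 : (0 : ℝ) ≤ J := Nat.cast_nonneg J
  have hk0p : 0 < k0 := lt_of_lt_of_le (by positivity) hk1
  have hk01 : k0 ≤ 1 := hk2.trans (by
    rw [div_le_one (by positivity)]
    linarith)
  have ha0 : 0 < 1 / ((J : ℝ) + 1) := by positivity
  have ha1 : 1 / ((J : ℝ) + 1) ≤ 1 := by
    rw [div_le_one hJ]
    linarith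
  have hσ : √lam ^ 2 * (C * n) = u := by rw [Real.sq_sqrt hlam, hu]
  obtain ⟨g, hg, hsum⟩ := d4_choice hFb hF (fun _ => √lam) hN0
    hh0.le hk0p (fun b m hm l hl z => by
      have := H785.ups_bd (σ := fun _ => √lam) (hFb b) (hcv b)
        (fun j hj => ha0.trans_le (hm j hj)) hl hh0.le (hBd b) (by rw [hσ]; exact hk01) ha0 ha1
        (fun j _ hj => hm j hj) z
      rwa [hσ] at this) S hS
  have hbox : ∀ l < J, ((J : ℝ) - l) / (J + 1) + h ≤ mgr J h g l ∧
      mgr J h g l + h ≤ ((J : ℝ) - l) / (J + 1) + 1 / (4 * ((J : ℝ) + 1)) :=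
    fun l hl => mgr_box hh0.le hhN (hg l hl)
  refine ⟨mgr J h g, h, hh0, hk1, hk2, hbox, fun q hq hmem => ?_⟩
  have hml : ∀ j < J, 1 / ((J : ℝ) + 1) ≤ mgr J h g j := fun j hj => mgr_pos hh0.le g hj
  have hmle : ∀ j < J, mgr J h g j ≤ 1 := by
    intro j hj
    have h1 := (hbox j hj).2
    have h2 : ((J : ℝ) - j) / (J + 1) + 1 / (4 * ((J : ℝ) + 1)) ≤ 1 := by
      rw [div_add_div _ _ (by positivity) (by positivity), div_le_one (by positivity)]
      have : (0 : ℝ) ≤ j := Nat.cast_nonneg j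
      nlinarith [mul_nonneg this hJ.le]
    linarith
  have hhl : ∀ j < J, |h| < mgr J h g j := by
    intro j hj
    rw [abs_of_pos hh0]
    have h1 := (hbox j hj).1
    have h2 : 0 < ((J : ℝ) - j) / (J + 1) := by
      have : (j : ℝ) < J := by exact_mod_cast hj
      have : 0 < (J : ℝ) - j := by linarith
      positivity
    linarith
  have hsec : ∀ b, ∀ l < J, ∀ z, 0 ≤ dsec (Fb b) (mgr J h g) (fun _ => √lam) J l h z := by
    intro b l hl z
    have h1 := hhl l hl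
    rw [abs_of_pos hh0] at h1
    exact H785.dsec_nonneg (σ := fun _ => √lam) (hFb b) (hcv b)
      (fun j hj => ha0.trans_le (hml j hj)) hl hh0.le h1 (hBd b) (by rw [hσ]; exact hk01) ha0 ha1
      (fun j _ hj => hml j hj) z
  have hdg : ∀ b l, EG (dsec (Fb b) (mgr J h g) (fun _ => √lam) J l h) := fun b l =>
    eg_dsec (hFb b) hhl
  -- the mean for the undressed functional
  have hK : (∑ b, Et q.x q.θ q.t0 q.t1 1 F (fun _ _ z => ∑ l ∈ Finset.range J,
      dsec (Fb b) (mgr J h g) (fun _ => √lam) J l h z)) / Fintype.card ι ≤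
      k0 * ((S.card : ℝ) * J / N) := by
    refine le_trans (le_of_eq ?_) ((Finset.single_le_sum (f := fun p : Pt =>
      ∑ l ∈ Finset.range J, (∑ b, Lg F p
        (dsec (Fb b) (mgr J h g) (fun _ => √lam) J l h)) / Fintype.card ι)
      (fun p hp => Finset.sum_nonneg fun l hl => div_nonneg (Finset.sum_nonneg fun b _ =>
        Lg_nonneg hF (hS p hp) fun z => hsec b l (Finset.mem_range.1 hl) z)
        (Nat.cast_nonneg _)) hmem).trans hsum)
    rw [← Finset.sum_div, Finset.sum_comm]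
    congr 1
    refine Finset.sum_congr rfl fun b _ => ?_
    exact Lg_sum (p := ⟨q.x, q.θ, q.t0, q.t1⟩) hF hq.x0 (Finset.range J) fun l _ => hdg b l
  have hcl' := hcl (mgr J h g) hml hmle
  have hc0 : 0 ≤ c := by
    have := hcl' 0
    linarith
  have hcx : (1 + 2 * |q.θ|) * q.x * c ≤ 1 := by
    refine le_trans ?_ (hSc _ hmem)
    have h1 : (1 + 2 * |q.θ|) * q.x ≤ 3 * q.x :=
      mul_le_mul_of_nonneg_right (by linarith [hq.abs_le]) hq.x0.le
    exact mul_le_mul_of_nonneg_right h1 hc0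
  have hV := c11_FD (σ := fun _ => √lam) hF J fun j hj => ha0.trans_le (hml j hj)
  obtain ⟨r1, r2⟩ := d4_law_s hF hV (fun z => (hcl' z).1) (fun z => (hcl' z).2)
    (G := fun b z => ∑ l ∈ Finset.range J, dsec (Fb b) (mgr J h g) (fun _ => √lam) J l h z)
    (fun b => EG.sum _ fun l _ => hdg b l)
    (fun b z => Finset.sum_nonneg fun l hl => hsec b l (Finset.mem_range.1 hl) z)
    hq hcx hK
  have hlast : 3 * (k0 * ((S.card : ℝ) * J / N)) ≤ S.card / u := by
    have hNp : (0 : ℝ) < N := by linarith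
    have hu0 : 0 < u := by linarith
    have hkJ : 3 * (k0 * J) ≤ 1 := by
      have h5 : k0 * ((J : ℝ) + 1) ≤ 1 / (8 * ((J : ℝ) + 1)) * ((J : ℝ) + 1) :=
        mul_le_mul_of_nonneg_right hk2 hJ.le
      have e : 1 / (8 * ((J : ℝ) + 1)) * ((J : ℝ) + 1) = 1 / 8 := by field_simp
      rw [e] at h5
      nlinarith
    calc 3 * (k0 * ((S.card : ℝ) * J / N)) = 3 * (k0 * J) * (S.card / N) := by ring
      _ ≤ 1 * (S.card / N) := mul_le_mul_of_nonneg_right hkJ (by positivity)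
      _ = S.card / N := one_mul _
      _ ≤ S.card / u := div_le_div_of_nonneg_left (by positivity) hu0 huN
  exact ⟨r1.trans hlast, r2.trans hlast⟩

end Vale.Agent.P146.X9.R1
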