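import Vale.Agent.P146.X9.Base
import Vale.Agent.P146.X9.H191_KapK
import Vale.Agent.P146.H722.Jet3

/-!
Plan R1, row (K) at a fixed bulk, for systems whose third coefficient is bounded by the variance of
the projection of the spins on the top direction and an additional functional of the bulk.
-/

open MeasureTheory ProbabilityTheory Matrix

namespace Vale.Agent.P146.X9.H95


open Vale.Agent.P157.Lv Vale.Agent.P146.H425 Vale.Agent.P146.H325 Vale.Agent.P146.H332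
  Vale.Agent.P146.H522 Vale.Agent.P146.H712 Vale.Agent.P146.H633 Vale.Agent.P146.R1
  Vale.Agent.P146.R1C Vale.Agent.P146.R1S Vale.Agent.P146.Cum Vale.Agent.P146.H816
  Vale.Agent.P146.H191
open Vale.Agent.P146.X9.H425 Vale.Agent.P146.X9.H325 Vale.Agent.P146.X9.H332 Vale.Agent.P146.X9.H522 Vale.Agent.P146.X9.H712 Vale.Agent.P146.X9.H633 Vale.Agent.P146.X9.R1 Vale.Agent.P146.X9.R1C Vale.Agent.P146.X9.R1S Vale.Agent.P146.X9.H816 Vale.Agent.P146.X9.H191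

set_option linter.unusedSectionVars false

variable {n : ℕ} {k x : ℝ} {S : CS n k x} {s : ℝ} {b b' : Fin n} {z : Pair n → ℝ}
  {v : Fin n → ℝ}

/-- the variance of the square of the projection of the spins on `v`, averaged over two rows -/
noncomputable def Vbr (S : CS n k x) (s : ℝ) (b b' : Fin n) (v : Fin n → ℝ) (lam : ℝ)
    (z : Pair n → ℝ) : ℝ :=
  AvP s (row b ∪ row b') (fun z' => ∑ σ, S.mu s z' σ * ((∑ i, v i * sp σ i) ^ 2 - lam) ^ 2) z

lemma vbr_le (h : Bv S s b b' z v) : Vbr S s b b' v (lamq S s b b' z v) z ≤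
    √(KA S s b b' z) + DlA S s b b' z := H191.vbar_le h

lemma t3_eq (z : Pair n → ℝ) : t3 v (fa (S.A s) s b b' z) = H722.A3S S s b b' v z := rfl

/-- **The bound of the third coefficient** on a bulk, every bulk and every direction `v` not
charging the two sites: `N lam` numbers, `Xf` an additional functional. -/
def T3B {n : ℕ} {k x : ℝ} (S : CS n k x) (s c0 C8 : ℝ) (N : ℝ → ℝ)
    (Xf : Fin n → Fin n → (Pair n → ℝ) → ℝ) : Prop :=
  ∀ (b b' : Fin n) (z : Pair n → ℝ) (v : Fin n → ℝ) (lam : ℝ), b ≠ b' → ∑ i, v i ^ 2 = 1 →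
    v b = 0 → v b' = 0 → 0 < lam → lam ≤ n →
    H722.A3S S s b b' v z ≤ (√s * k) ^ 3 * (-(c0 * lam ^ 2) + C8 * (Vbr S s b b' v lam z +
      lam ^ 2 * (N lam + Xf b b' z)))

/-- **(K) on the good bulks from the bound of the third coefficient.** -/
theorem kapG_T3B {β c0 C8 Γ : ℝ} (hβ : 0 < β) (hc0 : 0 < c0) (hC8 : 0 ≤ C8) : ∃ τ κ : ℝ,
    0 < τ ∧ τ ≤ 1 / 40 ∧ 0 < κ ∧ ∀ {n : ℕ} {k x : ℝ} {S : CS n k x} {s L : ℝ} {N : ℝ → ℝ}
      {X : Fin n → Fin n → (Pair n → ℝ) → ℝ}, (1 : ℝ) ≤ n → k ^ 2 * n = β ^ 2 → 1 / 2 ≤ s →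
      s ≤ 1 → Fn k SkS (uu x s S.F) (S.mu s) Γ → T3B S s c0 C8 N X →
      (∀ lam : ℝ, 0 < lam → lam ≤ n → L ≤ 2 * lam ^ 2 → N lam ≤ τ) → KapG S s τ κ L X := by
  -- `ε` with `3 C8 ε ≤ c0 / 2`
  obtain ⟨ε, hε0, hε1, hε⟩ : ∃ ε : ℝ, 0 < ε ∧ ε ≤ 1 / 40 ∧ C8 * (3 * ε) ≤ c0 / 2 := by
    refine ⟨min (1 / 40) (c0 / (6 * (C8 + 1))), lt_min (by norm_num) (by positivity),
      min_le_left _ _, ?_⟩
    have h1 : min (1 / 40) (c0 / (6 * (C8 + 1))) ≤ c0 / (6 * (C8 + 1)) := min_le_right _ _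
    calc C8 * (3 * min (1 / 40) (c0 / (6 * (C8 + 1)))) ≤
        (C8 + 1) * (3 * (c0 / (6 * (C8 + 1)))) := by
          have h2 : 0 ≤ min (1 / 40) (c0 / (6 * (C8 + 1))) := le_min (by norm_num) (by positivity)
          gcongr
          linarith
      _ = c0 / 2 := by field_simp; ring
  obtain ⟨τ, κ, hτ0, hτ1, hκ, hmain⟩ := kapG_t3 (β := β) (c := c0 / 2) (Γ := Γ) (ε := ε) hβ
    (by positivity) hε0 hε1
  refine ⟨τ, κ, hτ0, hτ1.trans hε1, hκ, ?_⟩
  intro n k x S s L N X hn hkn hs0 hs1 hFn hT hN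
  refine hmain hn hkn hs0 hs1 hFn fun b b' z v hb hv _ hL _ _ hX hl0 hln hFl hV => ?_
  rw [t3_eq]
  have h1 := hT b b' z v _ hb hv.v1 hv.vb hv.vb' hl0 hln
  have h2 := (vbr_le hv).trans hV
  have h3 := hN _ hl0 hln (hL.trans hFl)
  set lam := lamq S s b b' z v with hlam
  have hl2 : 0 ≤ lam ^ 2 := by positivity
  have hk := S.k0
  have hp : 0 ≤ (√s * k) ^ 3 := by positivity
  have h4 : C8 * (Vbr S s b b' v lam z + lam ^ 2 * (N lam + X b b' z)) ≤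
      C8 * (3 * ε) * lam ^ 2 := by
    have h5 : Vbr S s b b' v lam z + lam ^ 2 * (N lam + X b b' z) ≤ 3 * ε * lam ^ 2 := by
      have h6 : lam ^ 2 * (N lam + X b b' z) ≤ lam ^ 2 * (2 * ε) :=
        mul_le_mul_of_nonneg_left (by linarith) hl2
      linarith
    calc _ ≤ C8 * (3 * ε * lam ^ 2) := mul_le_mul_of_nonneg_left h5 hC8
      _ = _ := by ring
  have h7 : -(c0 * lam ^ 2) + C8 * (Vbr S s b b' v lam z + lam ^ 2 * (N lam + X b b' z)) ≤
      -(c0 / 2 * lam ^ 2) := by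
    have h8 : C8 * (3 * ε) * lam ^ 2 ≤ c0 / 2 * lam ^ 2 := mul_le_mul_of_nonneg_right hε hl2
    linarith
  have h9 := mul_le_mul_of_nonneg_left h7 hp
  calc c0 / 2 * ((√s * k) ^ 3 * lam ^ 2) = -((√s * k) ^ 3 * -(c0 / 2 * lam ^ 2)) := by ring
    _ ≤ -H722.A3S S s b b' v z := by linarith

end Vale.Agent.P146.X9.H95
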