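import Vale.Agent.P146.X9.Base
import Vale.Agent.P146.X9.H95_KapD
import Vale.Agent.P146.X9.H706_D4x
import Vale.Agent.P146.X9.H325_KapR
import Vale.Agent.P146.H504.Cum9
import Vale.Agent.P146.H546.Rb2
import Vale.Agent.P146.H327.Deep6
import Vale.Agent.P146.H713.DeepCS

/-!
Plan R1, all `β`, law `P_θ` with `θ = -1`: the third coefficient of the deep systems on a bulk.
-/

open MeasureTheory ProbabilityTheory

namespace Vale.Agent.P146.X9.H95

open Vale.Agent.P157.Lv Vale.Agent.P146.H425 Vale.Agent.P146.H325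
  Vale.Agent.P146.R1 Vale.Agent.P146.R1S Vale.Agent.P146.R1C Vale.Agent.P146.H191
open Vale.Agent.P146.X9.H425 Vale.Agent.P146.X9.H325 Vale.Agent.P146.X9.R1 Vale.Agent.P146.X9.R1S Vale.Agent.P146.X9.R1C Vale.Agent.P146.X9.H191
open Vale.Agent.P146.H722 (nuv)
open Vale.Agent.P146.H785 (Ax)

set_option linter.unusedSectionVars false

lemma abs_Sb {n : ℕ} (b : Fin n) (e : Pair n) (σ : Fin n → ℤˣ) : |H327.Sb b e σ| ≤ 1 := by
  unfold H327.Sb
  split_ifs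
  · simp
  · exact (H325.abs_pr e.1.1 e.1.2 σ).le

/-- **(K7)**: the fourth derivative of the deep functional in the direction of a row, averaged over
the row. -/
def K7H (β : ℝ) (J : ℕ) (c0 C7 C9 : ℝ) : Prop :=
  ∀ c : ℝ, 0 < c → ∃ n₀ : ℕ, ∀ n : ℕ, n₀ ≤ n → ∀ (X W h x : ℝ) (m : ℕ → ℝ)
    (hk : 0 < kk n β) (hE : Exs m J x), DLay β X W (c / 2) n J (H327.Sb (n := n)) m h →
    ∀ (b : Fin n) (v : Fin n → ℝ) (lam : ℝ), ∑ i, v i ^ 2 = 1 → v b = 0 → 0 < lam → lam ≤ n →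
    ∀ Z : Pair n → ℝ,
      AvP 1 (row b) (fun u => iteratedDeriv 4 (fun r : ℝ =>
        (deepCS n hk (fun _ => sdl (c / 2) n) hE).F (u + r • nuv b v)) 0) Z ≤
      kk n β ^ 4 * (-c0 * lam ^ 2 + C7 * (AvP 1 (row b) (fun u => ∑ σ,
        (deepCS n hk (fun _ => sdl (c / 2) n) hE).mu 1 u σ *
          ((∑ i, v i * sp σ i) ^ 2 - lam) ^ 2) Z +
        lam ^ 2 * (C9 * (1 / (sdl (c / 2) n ^ 2 * lam) +
          DS β (c / 2) n J (H327.Sb b) m h Z))))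

section one

variable {β c X W h x s : ℝ} {n J : ℕ} {m : ℕ → ℝ}

/-- the functional of the bulk -/
noncomputable def XD (β c x s C9 h : ℝ) (n J : ℕ) (m : ℕ → ℝ) (b b' : Fin n)
    (z : Pair n → ℝ) : ℝ :=
  C9 * AvP s (row b ∪ row b') (Ax x (√(1 - s)) (Fz n β m (fun _ => sdl (c / 2) n) J)
    (DS β (c / 2) n J (H327.Sb b) m h)) z

/-- the numbers -/
noncomputable def ND (c x C9 : ℝ) (n : ℕ) (lam : ℝ) : ℝ :=
  C9 * (x * n / lam + (x * n / lam) ^ 2 + 1 / (sdl (c / 2) n ^ 2 * lam))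

/-- **The third coefficient of the deep systems on a bulk.** -/
theorem t3B_deep {c0 C7 C9 : ℝ} (hn : 0 < n) (hC7 : 0 ≤ C7) (hC9 : 1 ≤ C9) (hk : 0 < kk n β)
    (hE : Exs m J x) (H : DLay β X W (c / 2) n J (H327.Sb (n := n)) m h)
    (hs : 0 < s) (hs1 : s ≤ 1) (h8 : 8 * (kk n β ^ 2 * n) * x ^ 2 ≤ 1)
    (hK7 : ∀ (b : Fin n) (v : Fin n → ℝ) (lam : ℝ), ∑ i, v i ^ 2 = 1 → v b = 0 → 0 < lam →
      lam ≤ n → ∀ Z : Pair n → ℝ,
      AvP 1 (row b) (fun u => iteratedDeriv 4 (fun r : ℝ =>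
        (deepCS n hk (fun _ => sdl (c / 2) n) hE).F (u + r • nuv b v)) 0) Z ≤
      kk n β ^ 4 * (-c0 * lam ^ 2 + C7 * (AvP 1 (row b) (fun u => ∑ σ,
        (deepCS n hk (fun _ => sdl (c / 2) n) hE).mu 1 u σ *
          ((∑ i, v i * sp σ i) ^ 2 - lam) ^ 2) Z +
        lam ^ 2 * (C9 * (1 / (sdl (c / 2) n ^ 2 * lam) +
          DS β (c / 2) n J (H327.Sb b) m h Z))))) :
    T3B (deepCS n hk (fun _ => sdl (c / 2) n) hE) s c0
      (C8 (2 + 2 * J) (kk n β ^ 2 * n) C7) (ND c x C9 n) (XD β c x s C9 h n J m) := by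
  intro b b' z v lam hbb hv hb hb' hl hln
  have hx := hE.x0
  have hDS0 := H.DS_nonneg hn abs_Sb b
  have hsd : 0 ≤ 1 / (sdl (c / 2) n ^ 2 * lam) := by positivity
  have he : EG fun Z => C9 * (1 / (sdl (c / 2) n ^ 2 * lam) +
      DS β (c / 2) n J (H327.Sb b) m h Z) := ((EG.const _).add (H.eg_DS b)).const_mul C9
  have h1 := t3d (b' := b') (Cum.root_deep (n := n) hk (fun _ => sdl (c / 2) n) hE) hv hb hb' hbb
    hs hs1 hl hln h8 (c0 := c0) hC7 he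
    (fun Z => mul_nonneg (by linarith) (add_nonneg hsd (hDS0 Z))) (hK7 b v lam hv hb hl hln) z
  have h2 : AvP s (row b ∪ row b') (Ax x (√(1 - s))
      (deepCS n hk (fun _ => sdl (c / 2) n) hE).F (fun Z => C9 * (1 / (sdl (c / 2) n ^ 2 * lam) +
        DS β (c / 2) n J (H327.Sb b) m h Z))) z =
      C9 * (1 / (sdl (c / 2) n ^ 2 * lam)) + XD β c x s C9 h n J m b b' z := by
    have e1 := Xi_const_mul (S := deepCS n hk (fun _ => sdl (c / 2) n) hE) (s := s)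
      (R := row b ∪ row b') C9 (fun Z => 1 / (sdl (c / 2) n ^ 2 * lam) +
        DS β (c / 2) n J (H327.Sb b) m h Z) z
    have e2 := Xi_add (S := deepCS n hk (fun _ => sdl (c / 2) n) hE) (s := s)
      (R := row b ∪ row b') (EG.const (1 / (sdl (c / 2) n ^ 2 * lam))) (H.eg_DS b) z
    have e3 := Xi_const (S := deepCS n hk (fun _ => sdl (c / 2) n) hE) (s := s)
      (R := row b ∪ row b') (1 / (sdl (c / 2) n ^ 2 * lam)) z
    rw [e2, e3, mul_add] at e1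
    exact e1
  rw [h2] at h1
  refine h1.trans ?_
  have hk0 := hk.le
  have hC8 : 0 ≤ C8 (2 + 2 * J) (kk n β ^ 2 * n) C7 := C8_nonneg (by positivity) (by positivity) hC7
  have hp : 0 ≤ (√s * kk n β) ^ 3 := by positivity
  refine mul_le_mul_of_nonneg_left ?_ hp
  have h3 : lam ^ 2 * (x * n / lam + (x * n / lam) ^ 2 + (C9 * (1 / (sdl (c / 2) n ^ 2 * lam)) +
      XD β c x s C9 h n J m b b' z)) ≤ lam ^ 2 * (ND c x C9 n lam +
        XD β c x s C9 h n J m b b' z) := by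
    refine mul_le_mul_of_nonneg_left ?_ (sq_nonneg lam)
    have h4 : 0 ≤ x * n / lam + (x * n / lam) ^ 2 := by positivity
    have h5 : x * n / lam + (x * n / lam) ^ 2 ≤ C9 * (x * n / lam + (x * n / lam) ^ 2) :=
      le_mul_of_one_le_left h4 hC9
    unfold ND
    linarith
  have h6 : -c0 * lam ^ 2 = -(c0 * lam ^ 2) := by ring
  rw [h6]
  refine add_le_add le_rfl (mul_le_mul_of_nonneg_left (add_le_add le_rfl h3) hC8)

lemma XD_nonneg {C9 : ℝ} (hn : 0 < n) (hC9 : 0 ≤ C9) (hk : 0 < kk n β)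
    (hE : Exs m J x) (H : DLay β X W (c / 2) n J (H327.Sb (n := n)) m h) (b b' : Fin n)
    (z : Pair n → ℝ) : 0 ≤ XD β c x s C9 h n J m b b' z := by
  refine mul_nonneg hC9 ?_
  exact Xi_nonneg (S := deepCS n hk (fun _ => sdl (c / 2) n) hE) (s := s)
    (R := row b ∪ row b') (H.eg_DS b) (H.DS_nonneg hn abs_Sb b) z

lemma eg_XD {C9 : ℝ} (hk : 0 < kk n β) (hE : Exs m J x)
    (H : DLay β X W (c / 2) n J (H327.Sb (n := n)) m h) (b b' : Fin n) :
    EG (XD β c x s C9 h n J m b b') :=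
  (eg_AvP (eg_Ax (deepCS n hk (fun _ => sdl (c / 2) n) hE).c11 (H.eg_DS b) x _) s _).const_mul C9

end one

/-- small numbers of `n` -/
lemma e0_le {n : ℕ} {x C9 : ℝ} (hn : 1 ≤ n) (hC9 : 0 ≤ C9)
    (hx : (n : ℝ) ^ (-(1 / 6) : ℝ) ≤ x) :
    C9 * (2 * (n : ℝ) ^ (-(1 / 24) : ℝ) + ((n : ℝ) ^ 200)⁻¹) ≤ 3 * C9 * x ^ ((1 : ℝ) / 8) := by
  have hn0 : (0 : ℝ) < n := by exact_mod_cast hn
  have hn1 : (1 : ℝ) ≤ n := by exact_mod_cast hn
  have h1 : (n : ℝ) ^ (-(1 / 24) : ℝ) ≤ x ^ ((1 : ℝ) / 8) := by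
    calc (n : ℝ) ^ (-(1 / 24) : ℝ) ≤ (n : ℝ) ^ (-(1 / 6) * (1 / 8) : ℝ) :=
          Real.rpow_le_rpow_of_exponent_le hn1 (by norm_num)
      _ = ((n : ℝ) ^ (-(1 / 6) : ℝ)) ^ ((1 : ℝ) / 8) := Real.rpow_mul hn0.le _ _
      _ ≤ x ^ ((1 : ℝ) / 8) :=
          Real.rpow_le_rpow (Real.rpow_nonneg hn0.le _) hx (by norm_num)
  have h2 : ((n : ℝ) ^ 200)⁻¹ ≤ x ^ ((1 : ℝ) / 8) := by
    refine le_trans ?_ h1
    rw [← Real.rpow_natCast, ← Real.rpow_neg hn0.le]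
    exact Real.rpow_le_rpow_of_exponent_le hn1 (by norm_num)
  calc C9 * (2 * (n : ℝ) ^ (-(1 / 24) : ℝ) + ((n : ℝ) ^ 200)⁻¹) ≤
      C9 * (2 * x ^ ((1 : ℝ) / 8) + x ^ ((1 : ℝ) / 8)) := by gcongr
    _ = _ := by ring

/-- **The numbers of a good bulk are small.** -/
theorem num_small2 {ka c α τ : ℝ} (hc : 0 < c) (hα : 0 < α) (hαc : 2 * α ≤ c) (hτ : 0 < τ) :
    ∃ n₀ : ℕ, ∀ n : ℕ, n₀ ≤ n → ∀ x lam R : ℝ, 0 < lam →
      (n : ℝ) ^ (-(1 / 6) + ka : ℝ) ≤ x → (n : ℝ) ^ c * x ≤ √R →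
      R * (n : ℝ) ^ 2 / (2 * (n : ℝ) ^ α) ≤ 2 * lam ^ 2 →
      x * n / lam + (x * n / lam) ^ 2 +
        1 / ((n : ℝ) ^ (-(5 / 6) - (2 * ka + c) / 2 : ℝ) * lam) ≤ τ := by
  have hev := (tendsto_rpow_neg_atTop (show (0 : ℝ) < c / 4 by positivity)).comp
    tendsto_natCast_atTop_atTop
  have hτ8 : (0 : ℝ) < min 1 (τ / 8) := lt_min one_pos (by positivity)
  obtain ⟨n₁, hn₁⟩ := Filter.eventually_atTop.1 (hev.eventually (Iio_mem_nhds hτ8))
  refine ⟨max 1 n₁, fun n hn x lam R hlam hxk hR hL => ?_⟩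
  have hn1 : 1 ≤ n := (le_max_left _ _).trans hn
  have hn0 : (0 : ℝ) < n := by exact_mod_cast hn1
  have hnr : (1 : ℝ) ≤ n := by exact_mod_cast hn1
  have hx0 : 0 < x := (Real.rpow_pos_of_pos hn0 _).trans_le hxk
  set u := (n : ℝ) ^ (-(c / 4)) with hu
  have hu1 : u < min 1 (τ / 8) := hn₁ n ((le_max_right _ _).trans hn)
  have hu0 : 0 < u := Real.rpow_pos_of_pos hn0 _
  have hua : u ≤ 1 := (hu1.le).trans (min_le_left _ _)
  have hub : u ≤ τ / 8 := (hu1.le).trans (min_le_right _ _)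
  have hnc : 0 < (n : ℝ) ^ c := Real.rpow_pos_of_pos hn0 _
  set y := (n : ℝ) ^ c * x with hy
  have hy0 : 0 < y := by positivity
  have hRp : 0 < R := by
    by_contra h
    rw [Real.sqrt_eq_zero_of_nonpos (not_lt.1 h)] at hR
    linarith
  have hyR : y ^ 2 ≤ R := by
    have := pow_le_pow_left₀ hy0.le hR 2
    rwa [Real.sq_sqrt hRp.le] at this
  set w := (n : ℝ) ^ (α / 2) with hw
  have hw0 : 0 < w := Real.rpow_pos_of_pos hn0 _
  have hww : w ^ 2 = (n : ℝ) ^ α := by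
    rw [hw, ← Real.rpow_natCast, ← Real.rpow_mul hn0.le]
    congr 1
    push_cast
    ring
  -- the lower bound of `lam`
  have hlow : y * n / (2 * w) ≤ lam := by
    have h1 : (y * n / (2 * w)) ^ 2 ≤ lam ^ 2 := by
      have h2 : R * (n : ℝ) ^ 2 / (4 * w ^ 2) ≤ lam ^ 2 := by
        rw [hww]
        have e : R * (n : ℝ) ^ 2 / (4 * (n : ℝ) ^ α) =
            (R * (n : ℝ) ^ 2 / (2 * (n : ℝ) ^ α)) / 2 := by
          rw [div_div]
          congr 1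
          ring
        rw [e]
        linarith
      calc (y * n / (2 * w)) ^ 2 = y ^ 2 * (n : ℝ) ^ 2 / (4 * w ^ 2) := by
            rw [div_pow]
            congr 1 <;> ring
        _ ≤ R * (n : ℝ) ^ 2 / (4 * w ^ 2) := by gcongr
        _ ≤ lam ^ 2 := h2
    exact le_of_sq_le_sq h1 hlam.le
  have hℓ0 : 0 < y * n / (2 * w) := by positivity
  have hwu : w ≤ u * (n : ℝ) ^ c := by
    rw [hw, hu, ← Real.rpow_add hn0]
    exact Real.rpow_le_rpow_of_exponent_le hnr (by linarith)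
  -- the first number
  have h1 : x * n / lam ≤ 2 * u := by
    calc x * n / lam ≤ x * n / (y * n / (2 * w)) := by gcongr
      _ = 2 * w / (n : ℝ) ^ c := by
          rw [hy]
          field_simp
      _ ≤ 2 * (u * (n : ℝ) ^ c) / (n : ℝ) ^ c := by gcongr
      _ = 2 * u := by field_simp
  have h10 : 0 ≤ x * n / lam := by positivity
  -- the second number
  have h2 : 1 / ((n : ℝ) ^ (-(5 / 6) - (2 * ka + c) / 2 : ℝ) * lam) ≤ 2 * u := by
    set t := (n : ℝ) ^ (-(5 / 6) - (2 * ka + c) / 2 : ℝ) with ht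
    have ht0 : 0 < t := Real.rpow_pos_of_pos hn0 _
    have e2 : w ≤ u * (t * (y * n)) := by
      have e3 : (n : ℝ) ^ (-(c / 4) + ((-(5 / 6) - (2 * ka + c) / 2) +
          ((c + (-(1 / 6) + ka)) + 1)) : ℝ) ≤ u * (t * (y * n)) := by
        rw [Real.rpow_add hn0, Real.rpow_add hn0, Real.rpow_add hn0, Real.rpow_add hn0,
          Real.rpow_one]
        have i1 : (n : ℝ) ^ c * (n : ℝ) ^ (-(1 / 6) + ka : ℝ) ≤ y :=
          mul_le_mul_of_nonneg_left hxk hnc.le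
        gcongr
      refine le_trans ?_ e3
      rw [hw]
      exact Real.rpow_le_rpow_of_exponent_le hnr (by linarith)
    calc 1 / (t * lam) ≤ 1 / (t * (y * n / (2 * w))) := by gcongr
      _ = 2 * w / (t * (y * n)) := by field_simp
      _ ≤ 2 * (u * (t * (y * n))) / (t * (y * n)) := by gcongr
      _ = 2 * u := by field_simp
  have h3 : (x * n / lam) ^ 2 ≤ 4 * u := by
    calc (x * n / lam) ^ 2 ≤ (2 * u) ^ 2 := pow_le_pow_left₀ h10 h1 2
      _ = 4 * (u * u) := by ring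
      _ ≤ 4 * (u * 1) := by gcongr
      _ = 4 * u := by ring
  linarith

end Vale.Agent.P146.X9.H95
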