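import Vale.Agent.P146.X9.H737_HK
import Vale.Agent.P146.X9.H95_K7F

/-!
The kappa inequality for deep functionals in the law with the exponent `x` on the window
`[1 - T/2, 1]`, for every `x ∈ [n^(-1/6), n^(-1/17)]`: the layers are chosen after `x` and `T`.
-/

open MeasureTheory ProbabilityTheory Filter

namespace Vale.Agent.P146.X9.H632

open Vale.Agent.P157.Lv Vale.Agent.P146.H425 Vale.Agent.P146.H325
open Vale.Agent.P146.R1 (Exs)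
open Vale.Agent.P146.R1C (Par)
open Vale.Agent.P146.R1S (CS deepCS)
open Vale.Agent.P146.X9.R1 Vale.Agent.P146.X9.R1C Vale.Agent.P146.X9.H95 Vale.Agent.P146.X9.H737

/-- finitely many thresholds -/
lemma ev_range {N : ℕ} {P : ℕ → ℕ → Prop} (h : ∀ j < N, ∃ n₀ : ℕ, ∀ n, n₀ ≤ n → P j n) :
    ∃ n₀ : ℕ, ∀ n, n₀ ≤ n → ∀ j < N, P j n := by
  have h1 : ∀ᶠ n : ℕ in atTop, ∀ j ∈ Finset.range N, P j n :=
    (Filter.eventually_all_finset _).2 fun j hj => by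
      obtain ⟨n₀, hn₀⟩ := h j (Finset.mem_range.1 hj)
      exact Filter.eventually_atTop.2 ⟨n₀, hn₀⟩
  obtain ⟨n₀, hn₀⟩ := Filter.eventually_atTop.1 h1
  exact ⟨n₀, fun n hn j hj => hn₀ n hn j (Finset.mem_range.2 hj)⟩

/-- the dyadic scale of `x` -/
lemma scale {n : ℕ} (hn : 2 ≤ n) {c x : ℝ} (hc : 0 < c) (h1 : (n : ℝ) ^ (-(1 / 6) : ℝ) ≤ x)
    (h2 : x ≤ (n : ℝ) ^ (-(1 / 17) : ℝ)) :
    ∃ j : ℕ, (j : ℝ) * (c / 4) ≤ 11 / 102 ∧ (n : ℝ) ^ (-(1 / 6) + j * (c / 4) : ℝ) ≤ x ∧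
      x ≤ (n : ℝ) ^ (-(1 / 6) + (j * (c / 4) + c / 4) : ℝ) := by
  classical
  have hn1 : (1 : ℝ) < n := by exact_mod_cast hn
  have hex : ∃ j : ℕ, x ≤ (n : ℝ) ^ (-(1 / 6) + (j * (c / 4) + c / 4) : ℝ) := by
    obtain ⟨j, hj⟩ := exists_nat_ge (1 / (c / 4))
    refine ⟨j, h2.trans (Real.rpow_le_rpow_of_exponent_le hn1.le ?_)⟩
    rw [div_le_iff₀ (by positivity)] at hj
    linarith
  have hlow : (n : ℝ) ^ (-(1 / 6) + (Nat.find hex : ℝ) * (c / 4) : ℝ) ≤ x := by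
    rcases Nat.eq_zero_or_pos (Nat.find hex) with h0 | h0
    · rw [h0, Nat.cast_zero, zero_mul, add_zero]
      exact h1
    · obtain ⟨j, hj⟩ : ∃ j, Nat.find hex = j + 1 := ⟨Nat.find hex - 1, by omega⟩
      have h3 := Nat.find_min hex (m := j) (by omega)
      rw [hj]
      push_cast
      have e : -(1 / 6) + ((j : ℝ) + 1) * (c / 4) = -(1 / 6) + (j * (c / 4) + c / 4) := by ring
      rw [e]
      exact (not_le.1 h3).le
  refine ⟨Nat.find hex, ?_, hlow, Nat.find_spec hex⟩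
  have h4 := (Real.rpow_le_rpow_left_iff hn1).1 (hlow.trans h2)
  linarith

/-- **The K-row for the deep functionals**, at every scale `x ∈ [n^(-1/6), n^(-1/17)]`: the
constant `C` depends only on `β`; the data `Fo` are asked for all admissible layers. -/
theorem krow {β : ℝ} (hβ : 0 < β) : ∃ C : ℝ, 0 ≤ C ∧ ∀ c : ℝ, 0 < c → c ≤ 1 / 60 →
    ∀ α : ℝ, 0 < α → 2 * α ≤ c → ∃ n₀ : ℕ, ∀ n : ℕ, n₀ ≤ n → ∀ x T ρ : ℝ,
      (n : ℝ) ^ (-(1 / 6) : ℝ) ≤ x → x ≤ (n : ℝ) ^ (-(1 / 17) : ℝ) →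
      (∀ (m σ : ℕ → ℝ) (J : ℕ) (hk : 0 < kk n β) (hE : Exs m J x), Lay n β m σ J →
        ∃ s1 s2 δ : ℝ, Fo n β ((n : ℝ) ^ α) δ T ρ ⟨x, -1, 0, 1 - T / 2, s1, s2⟩
          (deepCS n hk σ hE).F (deepCS n hk σ hE).A (deepCS n hk σ hE).DA) →
      T ≤ 1 / (n : ℝ) ^ α → (n : ℝ) ^ c * x ≤ √(2 * ρ / (β ^ 2 * n)) →
      2 * ρ / (β ^ 2 * n) ≤ C * ((n : ℝ) ^ α) ^ 17 * (√(1 / (n * T)) +
        x * √(2 * ρ / (β ^ 2 * n)) + ((1 / (x ^ 2 * ρ * T) + 1 / (n * T)) ^ ((1 : ℝ) / 8) +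
          x ^ ((1 : ℝ) / 8)) * (2 * ρ / (β ^ 2 * n)) + 1 / n) := by
  obtain ⟨J, c0, C7, C9, hc0, hC7, hC9, h7⟩ := k7e hβ
  obtain ⟨C, hC0, hC⟩ := hKk hβ hc0 hC7 hC9 h7
  refine ⟨C, hC0, fun c hc hc60 α hα hαc => ?_⟩
  obtain ⟨N, hN⟩ := exists_nat_gt ((11 / 102) / (c / 4))
  -- the thresholds of the scales
  obtain ⟨n₁, h1⟩ := ev_range (N := N + 1) (P := fun j n => (j : ℝ) * (c / 4) ≤ 11 / 102 →
    (∀ (T ρ x h s1 s2 δ : ℝ) (m' : ℕ → ℝ) (hk : 0 < kk n β) (hE : Exs m' J x),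
      DLay β x T ((2 * (j * (c / 4)) + c) / 2) n J (H327.Sb (n := n)) m' h →
      (n : ℝ) ^ (-(1 / 6) + j * (c / 4) : ℝ) ≤ x →
      Fo n β ((n : ℝ) ^ α) δ T ρ ⟨x, -1, 0, 1 - T / 2, s1, s2⟩
        (deepCS n hk (fun _ => sdl ((2 * (j * (c / 4)) + c) / 2) n) hE).F
        (deepCS n hk (fun _ => sdl ((2 * (j * (c / 4)) + c) / 2) n) hE).A
        (deepCS n hk (fun _ => sdl ((2 * (j * (c / 4)) + c) / 2) n) hE).DA →
      T ≤ 1 / (n : ℝ) ^ α → (n : ℝ) ^ c * x ≤ √(2 * ρ / (β ^ 2 * n)) →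
      2 * ρ / (β ^ 2 * n) ≤ C * ((n : ℝ) ^ α) ^ 17 * (√(1 / (n * T)) +
        x * √(2 * ρ / (β ^ 2 * n)) + ((1 / (x ^ 2 * ρ * T) + 1 / (n * T)) ^ ((1 : ℝ) / 8) +
          x ^ ((1 : ℝ) / 8)) * (2 * ρ / (β ^ 2 * n)) + 1 / n)) ∧
    ∀ X W : ℝ, 0 < X → X ≤ (n : ℝ) ^ (-(1 / 6) + (j * (c / 4) + c / 4) : ℝ) →
      ∀ (ι Y : Type) [Fintype ι] [Nonempty ι] [Fintype Y] [Nonempty Y]
      (Sx : ι → Pair n → Y → ℝ), (∀ b e σ, |Sx b e σ| ≤ 1) →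
      ∃ (m : ℕ → ℝ) (h : ℝ), DLay β X W ((2 * (j * (c / 4)) + c) / 2) n J Sx m h ∧
        Lay n β m (fun _ => sdl ((2 * (j * (c / 4)) + c) / 2) n) J) (by
    intro j _
    by_cases hj : (j : ℝ) * (c / 4) ≤ 11 / 102
    · have hj0 : 0 ≤ (j : ℝ) * (c / 4) := by positivity
      obtain ⟨a1, b1⟩ := hC c hc (j * (c / 4)) hj0 α hα hαc
      obtain ⟨a2, b2⟩ := d4_out (al := j * (c / 4) + c / 4) (e2 := (2 * (j * (c / 4)) + c) / 2) hβ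
        (by linarith) (by linarith) (by linarith) J
      exact ⟨max a1 a2, fun n hn _ => ⟨b1 n ((le_max_left _ _).trans hn),
        b2 n ((le_max_right _ _).trans hn)⟩⟩
    · exact ⟨0, fun n _ h => absurd h hj⟩)
  have hev := (tendsto_rpow_neg_atTop (show (0 : ℝ) < 1 / 17 by norm_num)).comp
    tendsto_natCast_atTop_atTop
  have hJ : (0 : ℝ) < 1 / ((J : ℝ) + 1) := by positivity
  obtain ⟨n₂, hn₂⟩ := Filter.eventually_atTop.1 (hev.eventually (Iio_mem_nhds hJ))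
  refine ⟨max 2 (max n₁ n₂), fun n hn x T ρ hx1 hx2 hFo hTA hR => ?_⟩
  have hn2 : 2 ≤ n := (le_max_left _ _).trans hn
  have g1 : n₁ ≤ n := ((le_max_left _ _).trans (le_max_right _ _)).trans hn
  have g2 : n₂ ≤ n := ((le_max_right _ _).trans (le_max_right _ _)).trans hn
  have hn0 : (0 : ℝ) < n := by
    have : 0 < n := by omega
    exact_mod_cast this
  have hx0 : 0 < x := (Real.rpow_pos_of_pos hn0 _).trans_le hx1
  have hk : 0 < kk n β := by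
    unfold kk
    positivity
  obtain ⟨j, j1, j2, j3⟩ := scale hn2 hc hx1 hx2
  have hjN : j < N + 1 := by
    have h3 : (j : ℝ) ≤ (11 / 102) / (c / 4) := by
      rw [le_div_iff₀ (by positivity)]
      exact j1
    have h4 : (j : ℝ) < N := h3.trans_lt hN
    have : j < N := by exact_mod_cast h4
    omega
  obtain ⟨k1, k2⟩ := h1 n g1 j hjN j1
  have : Nonempty (Fin n) := ⟨⟨0, by omega⟩⟩
  obtain ⟨m, h, hD, hL⟩ := k2 x T hx0 j3 (Fin n) (Fin n → ℤˣ) (H327.Sb (n := n)) abs_Sb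
  have hE : Exs m J x := hD.exs' hx0 (hx2.trans (le_of_lt (hn₂ n g2)))
  obtain ⟨s1, s2, δ, hf⟩ := hFo m _ J hk hE hL
  exact k1 T ρ x h s1 s2 δ m hk hE hD j2 hf hTA hR

end Vale.Agent.P146.X9.H632
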