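import Vale.Agent.P146.X9.KRow
import Vale.Agent.P146.H522.MaxPt

/-!
The kappa inequality in the numbers `D(m, σ)` of the free energy: at a point where the functional
is large, `r² ≤ n^a2 (m r + 1/√(n σ))` with `r² = 4 D / (β² n σ m)`.
-/

open MeasureTheory ProbabilityTheory Filter

namespace Vale.Agent.P146.X9.H632

open Vale.Agent.P157.Lv Vale.Agent.P146.H425 Vale.Agent.P146.H325
open Vale.Agent.P146.R1 (Exs)
open Vale.Agent.P146.R1C (Par)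
open Vale.Agent.P146.R1S (CS deepCS)
open Vale.Agent.P146.H432 (Dn ev_big)
open Vale.Agent.P146.X9.R1 Vale.Agent.P146.X9.R1C Vale.Agent.P146.X9.H95 Vale.Agent.P146.X9.H737

/-- the data of the block F at the point `(m, σ)`, for all admissible layers -/
def FoH (n : ℕ) (β α m σ : ℝ) : Prop :=
  ∀ (mm σσ : ℕ → ℝ) (J : ℕ) (hk : 0 < kk n β) (hE : Exs mm J m), Lay n β mm σσ J →
    ∃ s1 s2 δ : ℝ, Fo n β ((n : ℝ) ^ α) δ (2 * σ) (2 * Dn n β m σ / (m * σ))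
      ⟨m, -1, 0, 1 - σ, s1, s2⟩ (deepCS n hk σσ hE).F (deepCS n hk σσ hE).A
      (deepCS n hk σσ hE).DA

/-- the absorption of the relative errors -/
lemma row_num {N C P m r S u q a2 : ℝ} (hC : 0 ≤ C) (hP : 0 ≤ P) (hm : 0 ≤ m)
    (hr : 0 ≤ r) (hS : 0 < S) (hSN : S ≤ N) (hu : C * P * (u + q) ≤ 1 / 2)
    (ha2 : 4 * (C * P) ≤ N ^ a2) {w : ℝ} (hw : w ≤ 1 / S)
    (row : r ^ 2 ≤ C * P * (w + m * r + (u + q) * r ^ 2 + 1 / N)) :
    r ^ 2 ≤ N ^ a2 * (m * r + 1 / S) := by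
  have hCP : 0 ≤ C * P := mul_nonneg hC hP
  have h1 : 1 / N ≤ 1 / S := one_div_le_one_div_of_le hS hSN
  have hS' : 0 < 1 / S := by positivity
  have hmr : 0 ≤ m * r := mul_nonneg hm hr
  have h2 : C * P * (w + m * r + (u + q) * r ^ 2 + 1 / N) ≤
      C * P * (2 * (m * r + 1 / S)) + 1 / 2 * r ^ 2 := by
    have h3 : C * P * ((u + q) * r ^ 2) ≤ 1 / 2 * r ^ 2 := by
      have := mul_le_mul_of_nonneg_right hu (sq_nonneg r)
      linarith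
    have h4 : C * P * (w + m * r + 1 / N) ≤ C * P * (2 * (m * r + 1 / S)) :=
      mul_le_mul_of_nonneg_left (by linarith) hCP
    nlinarith
  have h5 : r ^ 2 ≤ 4 * (C * P) * (m * r + 1 / S) := by linarith
  exact h5.trans (mul_le_mul_of_nonneg_right ha2 (by positivity))

/-- the size of the window -/
lemma win_num {K m S D β : ℝ} (hm : 0 < m) (hS : 0 < S) (h1 : K * (m * S) ≤ D)
    (h2 : D ≤ β ^ 2 / 4 * (S ^ 2 * m)) : 4 * K ≤ β ^ 2 * S := by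
  have e1 : m * S * (4 * K) = 4 * (K * (m * S)) := by ring
  have e2 : m * S * (β ^ 2 * S) = 4 * (β ^ 2 / 4 * (S ^ 2 * m)) := by ring
  have h3 : m * S * (4 * K) ≤ m * S * (β ^ 2 * S) := by
    rw [e1, e2]
    linarith
  exact le_of_mul_le_mul_left h3 (by positivity)

/-- the second small number -/
lemma win_num2 {K S V β : ℝ} (hK : 1 ≤ K) (hV : 0 < V) (hSV : S ^ 2 = V)
    (h : 4 * K ≤ β ^ 2 * S) : 1 / (2 * V) ≤ β ^ 4 / 32 * K⁻¹ := by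
  have h2 := pow_le_pow_left₀ (by linarith) h 2
  have e1 : (β ^ 2 * S) ^ 2 = β ^ 4 * V := by rw [mul_pow, hSV]; ring
  have e2 : (4 * K) ^ 2 = 16 * K ^ 2 := by ring
  rw [e1, e2] at h2
  have h3 : K ≤ K ^ 2 := le_self_pow₀ hK two_ne_zero
  have hK0 : 0 < K := by linarith
  rw [← div_eq_mul_inv, div_div, div_le_div_iff₀ (by positivity) (by positivity)]
  linarith

/-- the size of `r` -/
lemma r_num {N lam β Q E c' m σ D : ℝ} (hN : 0 < N) (hlam : 0 < lam) (hm : 0 < m) (hσ : 0 < σ)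
    (hβ : 0 < β) (hQ : 0 < Q) (hE : lam * β ^ 2 / 4 ≤ E) (hc : c' ^ 2 = Q)
    (viol : N * (Q * E) * σ * m ^ 3 ≤ lam * D) :
    (c' * m) ^ 2 ≤ 2 * (2 * D / (m * σ)) / (β ^ 2 * N) := by
  have e3 : 2 * (2 * D / (m * σ)) = 4 * D / (m * σ) := by ring
  rw [mul_pow, hc, le_div_iff₀ (by positivity), e3, le_div_iff₀ (by positivity)]
  have h1 : N * (Q * (lam * β ^ 2 / 4)) * σ * m ^ 3 ≤ lam * D := by
    refine le_trans ?_ viol
    gcongr
  have h2 : lam * (Q * m ^ 2 * (β ^ 2 * N) * (m * σ)) ≤ lam * (4 * D) := by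
    calc lam * (Q * m ^ 2 * (β ^ 2 * N) * (m * σ)) =
        4 * (N * (Q * (lam * β ^ 2 / 4)) * σ * m ^ 3) := by ring
      _ ≤ 4 * (lam * D) := by linarith
      _ = lam * (4 * D) := by ring
  exact le_of_mul_le_mul_left h2 hlam

/-- the absorption, powers of `n` -/
lemma abs_num {N C α κ Bd u8 m8 : ℝ} (hN : 0 < N) (hC0 : 0 ≤ C)
    (t1 : 4 * C * (1 + Bd) ≤ N ^ (κ / 8 - 17 * α)) (t2 : 4 * C ≤ N ^ (1 / 136 - 17 * α))
    (hu8 : u8 ≤ (1 + Bd) * N ^ (-(κ / 8))) (hm8 : m8 ≤ N ^ (-(1 / 136) : ℝ)) :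
    C * N ^ (17 * α) * (u8 + m8) ≤ 1 / 2 := by
  have h1 : C * N ^ (17 * α) * ((1 + Bd) * N ^ (-(κ / 8))) ≤ 1 / 4 := by
    have e : N ^ (17 * α) * N ^ (-(κ / 8)) = (N ^ (κ / 8 - 17 * α))⁻¹ := by
      rw [← Real.rpow_add hN, ← Real.rpow_neg hN.le]
      congr 1
      ring
    have e2 : C * N ^ (17 * α) * ((1 + Bd) * N ^ (-(κ / 8))) =
        C * (1 + Bd) * (N ^ (κ / 8 - 17 * α))⁻¹ := by
      rw [← e]
      ring
    rw [e2, ← div_eq_mul_inv, div_le_iff₀ (Real.rpow_pos_of_pos hN _)]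
    linarith
  have h2 : C * N ^ (17 * α) * N ^ (-(1 / 136) : ℝ) ≤ 1 / 4 := by
    have e : N ^ (17 * α) * N ^ (-(1 / 136) : ℝ) = (N ^ (1 / 136 - 17 * α))⁻¹ := by
      rw [← Real.rpow_add hN, ← Real.rpow_neg hN.le]
      congr 1
      ring
    rw [mul_assoc, e, ← div_eq_mul_inv, div_le_iff₀ (Real.rpow_pos_of_pos hN _)]
    linarith
  have h3 : 0 ≤ C * N ^ (17 * α) := mul_nonneg hC0 (Real.rpow_nonneg hN.le _)
  calc C * N ^ (17 * α) * (u8 + m8)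
      ≤ C * N ^ (17 * α) * ((1 + Bd) * N ^ (-(κ / 8)) + N ^ (-(1 / 136) : ℝ)) :=
        mul_le_mul_of_nonneg_left (add_le_add hu8 hm8) h3
    _ = C * N ^ (17 * α) * ((1 + Bd) * N ^ (-(κ / 8))) + C * N ^ (17 * α) * N ^ (-(1 / 136) : ℝ) :=
        mul_add _ _ _
    _ ≤ 1 / 4 + 1 / 4 := add_le_add h1 h2
    _ = 1 / 2 := by norm_num

/-- the power `1/8` -/
lemma u8_num {N Bd κ u : ℝ} (hN : 0 < N) (hB : 0 < Bd) (hu0 : 0 ≤ u) (hu : u ≤ Bd * N ^ (-κ)) :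
    u ^ ((1 : ℝ) / 8) ≤ (1 + Bd) * N ^ (-(κ / 8)) := by
  calc u ^ ((1 : ℝ) / 8) ≤ (Bd * N ^ (-κ)) ^ ((1 : ℝ) / 8) :=
        Real.rpow_le_rpow hu0 hu (by norm_num)
    _ = Bd ^ ((1 : ℝ) / 8) * (N ^ (-κ)) ^ ((1 : ℝ) / 8) :=
        Real.mul_rpow hB.le (Real.rpow_nonneg hN.le _)
    _ = Bd ^ ((1 : ℝ) / 8) * N ^ (-(κ / 8)) := by
        rw [← Real.rpow_mul hN.le]
        congr 2
        ring
    _ ≤ (1 + Bd) * N ^ (-(κ / 8)) := by
        refine mul_le_mul_of_nonneg_right ?_ (Real.rpow_nonneg hN.le _)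
        calc Bd ^ ((1 : ℝ) / 8) ≤ (1 + Bd) ^ ((1 : ℝ) / 8) :=
              Real.rpow_le_rpow hB.le (by linarith) (by norm_num)
          _ ≤ (1 + Bd) ^ (1 : ℝ) :=
              Real.rpow_le_rpow_of_exponent_le (by linarith) (by norm_num)
          _ = 1 + Bd := Real.rpow_one _

/-- the first small number -/
lemma u1_num {N e κ m D σ : ℝ} (hN : 1 ≤ N) (he : 0 ≤ e) (hσ : 0 < σ)
    (b1 : N ^ (-(1 / 6) + e) ≤ m) (size : N ^ (1 / 6 + κ) ≤ D) :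
    1 / (m ^ 2 * (2 * D / (m * σ)) * (2 * σ)) ≤ 1 / 4 * N ^ (-κ) := by
  have hN0 : 0 < N := by linarith
  have hm : 0 < m := (Real.rpow_pos_of_pos hN0 _).trans_le b1
  have hD : 0 < D := (Real.rpow_pos_of_pos hN0 _).trans_le size
  have hp : 0 < N ^ κ := Real.rpow_pos_of_pos hN0 _
  have e1 : m ^ 2 * (2 * D / (m * σ)) * (2 * σ) = 4 * (m * D) := by
    field_simp
    ring
  have h1 : N ^ κ ≤ m * D := by
    calc N ^ κ ≤ N ^ ((-(1 / 6) + e) + (1 / 6 + κ)) :=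
          Real.rpow_le_rpow_of_exponent_le hN (by linarith)
      _ = N ^ (-(1 / 6) + e) * N ^ (1 / 6 + κ) := Real.rpow_add hN0 _ _
      _ ≤ m * D := mul_le_mul b1 size (Real.rpow_nonneg hN0.le _) hm.le
  rw [e1, Real.rpow_neg hN0.le, ← one_div, div_mul_div_comm, one_mul]
  exact one_div_le_one_div_of_le (by positivity) (by linarith)

/-- the first error of the row -/
lemma w_num {N σ S : ℝ} (hN : 0 < N) (hσ : 0 < σ) (hS : S = √(N * σ)) (hS0 : 0 < S) :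
    √(1 / (N * (2 * σ))) ≤ 1 / S := by
  rw [Real.sqrt_div zero_le_one, Real.sqrt_one]
  refine one_div_le_one_div_of_le hS0 ?_
  rw [hS]
  have := mul_pos hN hσ
  exact Real.sqrt_le_sqrt (by linarith)

/-- the last constant -/
lemma c_num {N C α a2 : ℝ} (hN : 0 < N) (t3 : 4 * C ≤ N ^ (a2 - 17 * α)) :
    4 * (C * N ^ (17 * α)) ≤ N ^ a2 := by
  have e : N ^ a2 = N ^ (17 * α) * N ^ (a2 - 17 * α) := by
    rw [← Real.rpow_add hN]
    congr 1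
    ring
  rw [e]
  have := mul_le_mul_of_nonneg_left t3 (Real.rpow_nonneg hN.le (17 * α))
  linarith

/-- the window is short -/
lemma T_num {N σ τ α : ℝ} (hN : 0 < N) (b4 : σ ≤ N ^ (-τ)) (t6 : 2 ≤ N ^ (τ - α)) :
    2 * σ ≤ 1 / N ^ α := by
  rw [le_div_iff₀ (Real.rpow_pos_of_pos hN _)]
  have h1 : N ^ (-τ) * N ^ α * N ^ (τ - α) = 1 := by
    rw [← Real.rpow_add hN, ← Real.rpow_add hN, ← Real.rpow_zero N]
    congr 1
    ring
  have h2 : 0 < N ^ (-τ) * N ^ α :=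
    mul_pos (Real.rpow_pos_of_pos hN _) (Real.rpow_pos_of_pos hN _)
  have h3 : 0 < N ^ α := Real.rpow_pos_of_pos hN _
  calc 2 * σ * N ^ α ≤ 2 * (N ^ (-τ)) * N ^ α := by gcongr
    _ = N ^ (-τ) * N ^ α * 2 := by ring
    _ ≤ N ^ (-τ) * N ^ α * N ^ (τ - α) := mul_le_mul_of_nonneg_left t6 h2.le
    _ = 1 := h1

/-- **The K-row in numbers.** -/
theorem krow_pt {β : ℝ} (hβ : 0 < β) {α e κ a τ lam a1 a2 : ℝ} (hα : 0 < α) (he : 0 ≤ e)
    (hακ : 136 * α < κ) (hα17 : 2312 * α < 1) (hαa : 4 * α < a) (hατ : α < τ) (hlam : 0 < lam)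
    (ha1 : 0 < a1) (ha2 : 17 * α < a2) :
    ∀ᶠ n : ℕ in atTop, ∀ m σ : ℝ, (n : ℝ) ^ (-(1 / 6) + e) ≤ m → m ≤ (n : ℝ) ^ (-(1 / 17) : ℝ) →
      0 < σ → σ ≤ (n : ℝ) ^ (-τ) → (n : ℝ) ^ (1 + a) * σ * m ^ 3 ≤ lam * Dn n β m σ →
      (n : ℝ) ^ (1 / 6 + κ) ≤ Dn n β m σ → (n : ℝ) ^ κ * (m * √(n * σ)) ≤ Dn n β m σ →
      FoH n β α m σ →
      ∃ r : ℝ, 0 ≤ r ∧ Dn n β m σ ≤ (n : ℝ) ^ a1 * (n * σ * m * r ^ 2) ∧
        r ^ 2 ≤ (n : ℝ) ^ a2 * (m * r + 1 / √(n * σ)) := by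
  obtain ⟨C, hC0, hC⟩ := krow hβ
  have hκ : 0 < κ := by linarith
  have hτ : 0 < τ := by linarith
  obtain ⟨c, hcd⟩ : ∃ c : ℝ, c = min (1 / 60) (a / 4 + α) := ⟨_, rfl⟩
  have hc1 : c ≤ 1 / 60 := hcd ▸ min_le_left _ _
  have hc2 : c ≤ a / 4 + α := hcd ▸ min_le_right _ _
  have hc0 : 2 * α ≤ c := by
    rw [hcd]
    exact le_min (by linarith) (by linarith)
  obtain ⟨n₀, hn₀⟩ := hC c (by linarith) hc1 α hα hc0
  obtain ⟨Bd, hBd⟩ : ∃ B : ℝ, B = 1 / 4 + β ^ 4 / 32 := ⟨_, rfl⟩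
  have hB0 : 0 < Bd := by rw [hBd]; positivity
  filter_upwards [eventually_ge_atTop n₀, eventually_ge_atTop 2,
    ev_big (a := κ / 8 - 17 * α) (C := 4 * C * (1 + Bd)) (by linarith),
    ev_big (a := 1 / 136 - 17 * α) (C := 4 * C) (by linarith),
    ev_big (a := a2 - 17 * α) (C := 4 * C) (by linarith),
    ev_big (a := a1) (C := β ^ 2 / 4) ha1,
    ev_big (a := a - 2 * c) (C := lam * β ^ 2 / 4) (by linarith),
    ev_big (a := τ - α) (C := 2) (by linarith)] with n hn hn2 t1 t2 t3 t4 t5 t6 m σ b1 b2 b3 b4 viol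
    size half hF
  have hn1 : (1 : ℝ) ≤ n := by exact_mod_cast (by omega : 1 ≤ n)
  have hn0 : (0 : ℝ) < n := by linarith
  have hnn : 0 < n := by omega
  have hm : 0 < m := (Real.rpow_pos_of_pos hn0 _).trans_le b1
  have hσ1 : σ ≤ 1 := b4.trans (Real.rpow_le_one_of_one_le_of_nonpos hn1 (by linarith))
  have hD0 : 0 < Dn n β m σ := (Real.rpow_pos_of_pos hn0 _).trans_le size
  have hDle := H522.Dn_le hnn β hm b3.le hσ1
  obtain ⟨D, hD⟩ : ∃ D, D = Dn n β m σ := ⟨_, rfl⟩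
  rw [← hD] at viol size half hD0 hDle ⊢
  obtain ⟨r, hr⟩ : ∃ r, r = √(2 * (2 * D / (m * σ)) / (β ^ 2 * n)) := ⟨_, rfl⟩
  have hr0 : 0 ≤ r := hr ▸ Real.sqrt_nonneg _
  have hr2 : r ^ 2 = 2 * (2 * D / (m * σ)) / (β ^ 2 * n) := by
    rw [hr, Real.sq_sqrt (by positivity)]
  have hDr : (n : ℝ) * σ * m * r ^ 2 = 4 * D / β ^ 2 := by
    rw [hr2]
    field_simp
    ring
  obtain ⟨S, hS⟩ : ∃ S, S = √((n : ℝ) * σ) := ⟨_, rfl⟩
  have hS0 : 0 < S := by rw [hS]; exact Real.sqrt_pos.2 (by positivity)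
  have hS2 : S ^ 2 = n * σ := by rw [hS, Real.sq_sqrt (by positivity)]
  rw [← hS] at half ⊢
  refine ⟨r, hr0, ?_, ?_⟩
  · rw [hDr]
    have h1 : D * (β ^ 2 / 4) ≤ D * (n : ℝ) ^ a1 := mul_le_mul_of_nonneg_left t4.le hD0.le
    rw [← mul_div_assoc, le_div_iff₀ (by positivity)]
    nlinarith
  · -- the size of the window
    have hSκ : 4 * (n : ℝ) ^ κ ≤ β ^ 2 * S := by
      refine win_num hm hS0 half ?_
      rw [hS2]
      exact hDle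
    have hp : 0 < (n : ℝ) ^ κ := Real.rpow_pos_of_pos hn0 _
    have hp1 : 1 ≤ (n : ℝ) ^ κ := Real.one_le_rpow hn1 hκ.le
    -- the two small numbers
    have hu1 := u1_num hn1 he b3 b1 size
    have hu2 : 1 / ((n : ℝ) * (2 * σ)) ≤ β ^ 4 / 32 * (n : ℝ) ^ (-κ) := by
      have h1 := win_num2 hp1 (V := n * σ) (by positivity) hS2 hSκ
      rw [← Real.rpow_neg hn0.le] at h1
      rwa [mul_left_comm] at h1
    have hu : 1 / (m ^ 2 * (2 * D / (m * σ)) * (2 * σ)) + 1 / ((n : ℝ) * (2 * σ)) ≤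
        Bd * (n : ℝ) ^ (-κ) := by
      rw [hBd]
      linarith
    have hu0 : 0 ≤ 1 / (m ^ 2 * (2 * D / (m * σ)) * (2 * σ)) + 1 / ((n : ℝ) * (2 * σ)) := by
      positivity
    obtain ⟨u, hud⟩ : ∃ u, u = 1 / (m ^ 2 * (2 * D / (m * σ)) * (2 * σ)) +
      1 / ((n : ℝ) * (2 * σ)) := ⟨_, rfl⟩
    rw [← hud] at hu hu0
    have hu8 := u8_num hn0 hB0 hu0 hu
    have hm8 : m ^ ((1 : ℝ) / 8) ≤ (n : ℝ) ^ (-(1 / 136) : ℝ) := by
      refine (Real.rpow_le_rpow hm.le b2 (by norm_num)).trans (le_of_eq ?_)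
      rw [← Real.rpow_mul hn0.le]
      norm_num
    have hP : ((n : ℝ) ^ α) ^ 17 = (n : ℝ) ^ (17 * α) := by
      rw [← Real.rpow_natCast, ← Real.rpow_mul hn0.le]
      congr 1
      push_cast
      ring
    have habs : C * (n : ℝ) ^ (17 * α) * (u ^ ((1 : ℝ) / 8) + m ^ ((1 : ℝ) / 8)) ≤ 1 / 2 :=
      abs_num hn0 hC0 t1.le t2.le hu8 hm8
    -- the row
    have hF' : ∀ (mm σσ : ℕ → ℝ) (J : ℕ) (hk : 0 < kk n β) (hE : Exs mm J m), Lay n β mm σσ J →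
        ∃ s1 s2 δ : ℝ, Fo n β ((n : ℝ) ^ α) δ (2 * σ) (2 * D / (m * σ))
          ⟨m, -1, 0, 1 - 2 * σ / 2, s1, s2⟩
          (deepCS n hk σσ hE).F (deepCS n hk σσ hE).A (deepCS n hk σσ hE).DA := by
      intro mm σσ J hk hE hL
      have e : 2 * σ / 2 = σ := by ring
      rw [e, hD]
      exact hF mm σσ J hk hE hL
    have hT : 2 * σ ≤ 1 / (n : ℝ) ^ α := T_num hn0 b4 t6.le
    have hx6 : (n : ℝ) ^ (-(1 / 6) : ℝ) ≤ m :=
      (Real.rpow_le_rpow_of_exponent_le hn1 (by linarith)).trans b1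
    have hR : (n : ℝ) ^ c * m ≤ √(2 * (2 * D / (m * σ)) / (β ^ 2 * n)) := by
      have e1 : ((n : ℝ) ^ c) ^ 2 = (n : ℝ) ^ (2 * c) := by
        rw [← Real.rpow_natCast, ← Real.rpow_mul hn0.le]
        congr 1
        push_cast
        ring
      have e2 : (n : ℝ) ^ (1 + a) = n * ((n : ℝ) ^ (2 * c) * (n : ℝ) ^ (a - 2 * c)) := by
        rw [← Real.rpow_add hn0, Real.rpow_add hn0, Real.rpow_one]
        congr 2
        ring
      rw [e2] at viol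
      exact Real.le_sqrt_of_sq_le (r_num hn0 hlam hm b3 hβ (Real.rpow_pos_of_pos hn0 _) t5.le e1
        viol)
    have key := hn₀ n hn m (2 * σ) (2 * D / (m * σ)) hx6 b2 hF' hT hR
    rw [← hud, ← hr, ← hr2, hP] at key
    have hSN : S ≤ n := by
      have h1 : S ^ 2 ≤ (n : ℝ) ^ 2 := by
        rw [hS2, pow_two]
        exact mul_le_mul_of_nonneg_left (hσ1.trans hn1) hn0.le
      exact le_of_sq_le_sq h1 hn0.le
    refine row_num (P := (n : ℝ) ^ (17 * α)) (w := √(1 / (n * (2 * σ)))) hC0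
      (Real.rpow_nonneg hn0.le _) hm.le hr0 hS0 hSN habs ?_ ?_ key
    · exact c_num hn0 t3.le
    · exact w_num hn0 b3 hS hS0

end Vale.Agent.P146.X9.H632
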